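import Crest.Agent.N336.P.Sound.Layer

/-!
# Row 336, soundness of plans: the paint move (helper29)
-/

set_option autoImplicit false
set_option linter.unusedSectionVars false

open Matrix Finset
open scoped Matrix.Norms.L2Operator

namespace Crest.Agent.N336.P.Snd

open Crest.MathPhysics.LatticeSpin Crest.Agent.N336.Q

variable {Λ Rg Pa : Type} [Fintype Λ] [DecidableEq Λ] [Fintype Rg] [DecidableEq Rg]
  [DecidableEq Pa] {q nt : ℕ} [NeZero q]

/-- new records on fresh tags -/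
lemma exists_rec {Ω : N336.Vec Λ q} {B ℓ : ℕ} {ε : ℝ} (hB : B ≤ q ^ nt)
    (f : Fin ℓ × Fin nt ↪ Rg) (new : Finset (Hole Λ Pa)) (hn : new.card ≤ ℓ)
    (hP : ∀ w ∈ new, PatchFam Ω B ε w.I w.O) (rc : Hole Λ Pa → Rec Λ Rg q nt) :
    ∃ rc' : Hole Λ Pa → Rec Λ Rg q nt, (∀ v, v ∉ new → rc' v = rc v) ∧
      (∀ w ∈ new, (rc' w).toFm.OK Ω B ε w.I w.O ∧ rg (rc' w).tag ⊆ rg f) ∧
      ∀ w ∈ new, ∀ w' ∈ new, w ≠ w' → Disjoint (rg (rc' w).tag) (rg (rc' w').tag) := by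
  obtain ⟨idx⟩ : Nonempty (new ↪ Fin ℓ) :=
    Function.Embedding.nonempty_of_card_le (by simpa using hn)
  have h1 : ∀ w : new, ∃ R : Rec Λ Rg q nt, R.toFm.OK Ω B ε w.1.I w.1.O ∧
      ∀ j, R.tag j = f (idx w, j) := by
    intro w
    obtain ⟨F, hF⟩ := exists_fm (hP w.1 w.2)
    obtain ⟨code⟩ : Nonempty (Fin F.nb ↪ (Fin nt → Fin q)) :=
      Function.Embedding.nonempty_of_card_le (by simpa using hF.nb_le.trans hB)
    exact ⟨⟨F, (Function.Embedding.sectR (idx w) (Fin nt)).trans f, code⟩, hF, fun _ => rfl⟩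
  choose R hR using h1
  refine ⟨fun v => if h : v ∈ new then R ⟨v, h⟩ else rc v, fun v hv => dif_neg hv,
    fun w hw => ?_, fun w hw w' hw' hne => ?_⟩
  · simp only [dif_pos hw]
    refine ⟨(hR ⟨w, hw⟩).1, fun r hr => ?_⟩
    obtain ⟨j, rfl⟩ := mem_rg.1 hr
    rw [(hR _).2]; exact apply_mem_rg _ _
  · simp only [dif_pos hw, dif_pos hw']
    rw [Finset.disjoint_left]
    intro r h1 h2
    obtain ⟨j, rfl⟩ := mem_rg.1 h1
    obtain ⟨j', e⟩ := mem_rg.1 h2
    rw [(hR _).2, (hR _).2] at e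
    exact hne (congrArg Subtype.val (idx.injective (congrArg Prod.fst (f.injective e)))).symm

/-- new owners -/
lemma exists_own (ρ : Λ ↪ Rg) (col' : Λ → Pa) (o : Rg → Pa) (new : Finset (Hole Λ Pa))
    (T' : Hole Λ Pa → Finset Rg) (h1 : ∀ w ∈ new, Disjoint (T' w) (rg ρ))
    (h2 : ∀ w ∈ new, ∀ w' ∈ new, w ≠ w' → Disjoint (T' w) (T' w')) :
    ∃ o' : Rg → Pa, (∀ z, o' (ρ z) = col' z) ∧ (∀ w ∈ new, ∀ r ∈ T' w, o' r = w.tg) ∧
      ∀ r, r ∉ rg ρ → (∀ w ∈ new, r ∉ T' w) → o' r = o r := by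
  classical
  refine ⟨fun r => if h : ∃ z, ρ z = r then col' h.choose else
    if h' : ∃ w ∈ new, r ∈ T' w then h'.choose.tg else o r, fun z => ?_, fun w hw r hr => ?_,
    fun r hr hr' => ?_⟩
  · have h : ∃ z', ρ z' = ρ z := ⟨z, rfl⟩
    simp only [dif_pos h, ρ.injective h.choose_spec]
  · have h : ¬ ∃ z, ρ z = r := fun h => Finset.disjoint_left.1 (h1 w hw) hr (mem_rg.2 h)
    have h' : ∃ w ∈ new, r ∈ T' w := ⟨w, hw, hr⟩
    simp only [dif_neg h, dif_pos h']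
    by_contra h3
    exact Finset.disjoint_left.1 (h2 _ h'.choose_spec.1 w hw fun e => h3 (by rw [e]))
      h'.choose_spec.2 hr
  · have h : ¬ ∃ z, ρ z = r := fun h => hr (mem_rg.2 h)
    have h' : ¬ ∃ w ∈ new, r ∈ T' w := fun ⟨w, hw, h⟩ => hr' w hw h
    simp only [dif_neg h, dif_neg h']

theorem paint_step {Ω : N336.Vec Λ q} {B ℓ : ℕ} {ε δ : ℝ} {Fr Fr' : Finset Rg} {I : Finset Pa}
    {o : Rg → Pa} {s s' : CSt Λ Pa} {x : N336.Vec Rg q} (hΩ : ‖Ω‖ = 1) (hε0 : 0 ≤ ε) (hε : ε < 1)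
    (hB1 : 1 ≤ B) (hB : B ≤ q ^ nt) (f : Fin ℓ × Fin nt ↪ Rg)
    (hF : Fr' ⊆ Fr) (hf : rg f ⊆ Fr) (hf' : Disjoint (rg f) Fr')
    (ho : I.Nonempty → ∀ y, o (f y) ∈ I) (hm : PaintMove (PatchFam Ω B ε) ℓ I s s')
    (hx : Inv nt Ω B ε Fr o s δ x) :
    ∃ (g : Gate Rg Pa q) (o' : Rg → Pa), g.I = I ∧ g.Valid (B ^ ℓ) (2 * ℓ) o o' ∧
      (∀ r ∈ Fr', o' r = o r) ∧ Inv nt Ω B ε Fr' o' s' (δ + ℓ * ε) (act g.op x) := by
  obtain ⟨old, new, pr, pr', cells, hold, hH, hd, hℓ, q1, q2, q3, q4, q5, p4, p5, p6, p7, pc, p8,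
    p9⟩ := hm
  obtain ⟨D, h, hx1, hx2⟩ := hx
  obtain ⟨rc', hrc, hnew, hpw⟩ := exists_rec hB f new (by omega) (fun w hw => (q2 w hw).1) D.rc
  have tF : ∀ w ∈ new, rg (rc' w).tag ⊆ Fr := fun w hw => (hnew w hw).2.trans hf
  have tρ : ∀ w ∈ new, Disjoint (rg (rc' w).tag) (rg D.ρ) := fun w hw =>
    h.dF.symm.mono_left (tF w hw)
  obtain ⟨o', o1, o2, o3⟩ := exists_own D.ρ s'.col o new (fun w => rg (rc' w).tag) tρ hpw
  have hst : ∀ v ∈ s.H \ old, v ∈ s.H ∧ rc' v = D.rc v := fun v hv =>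
    ⟨(Finset.mem_sdiff.1 hv).1, hrc v (Finset.disjoint_left.1 hd hv)⟩
  have hc : ∀ {P : Hole Λ Pa → Prop}, (∀ v ∈ s.H \ old, P v) → (∀ v ∈ new, P v) →
      ∀ v ∈ s'.H, P v := fun h1 h2 v hv => by
    rw [hH] at hv
    exact (Finset.mem_union.1 hv).elim (h1 v) (h2 v)
  have tT : ∀ v ∈ s.H, ∀ w ∈ new, Disjoint (rg (D.rc v).tag) (rg (rc' w).tag) := fun v hv w hw =>
    (h.dTF v hv).mono_right (tF w hw)
  set D' : Dat Λ Rg Pa q nt := ⟨D.ρ, D.W, rc'⟩ with hD'
  have h' : D'.OK Ω B ε Fr' o' s' :=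
    { ind := h.ind
      zF := h.zF.mono hF
      zT := hc (fun v hv => by
          change Zr (rg (rc' v).tag) D.W
          rw [(hst v hv).2]; exact h.zT v (hst v hv).1) fun w hw => h.zF.mono (tF w hw)
      nrm := h.nrm
      dF := h.dF.mono_right hF
      col := o1
      ok := hc (fun v hv => by
          change (rc' v).toFm.OK _ _ _ _ _
          rw [(hst v hv).2]; exact h.ok v (hst v hv).1) fun w hw => (hnew w hw).1
      tg := hc (fun v hv j => by
          change o' ((rc' v).tag j) = _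
          rw [(hst v hv).2, o3 _ (Finset.disjoint_left.1 (h.dT v (hst v hv).1) (apply_mem_rg _ j))
            fun w hw => Finset.disjoint_left.1 (tT v (hst v hv).1 w hw) (apply_mem_rg _ j),
            h.tg v (hst v hv).1]) fun w hw j => o2 w hw _ (apply_mem_rg _ j)
      dT := hc (fun v hv => by
          change Disjoint (rg (rc' v).tag) (rg D.ρ)
          rw [(hst v hv).2]; exact h.dT v (hst v hv).1) tρ
      dTF := hc (fun v hv => by
          change Disjoint (rg (rc' v).tag) Fr'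
          rw [(hst v hv).2]; exact (h.dTF v (hst v hv).1).mono_right hF)
        fun w hw => hf'.mono_left (hnew w hw).2
      pw := hc
        (fun v hv => hc
          (fun w hw hne => by
            change _ ∧ Disjoint (rg (rc' v).tag) (rg (rc' w).tag)
            rw [(hst v hv).2, (hst w hw).2]; exact h.pw v (hst v hv).1 w (hst w hw).1 hne)
          fun w hw _ => ⟨(q4 v hv).2 w hw, by
            change Disjoint (rg (rc' v).tag) (rg (rc' w).tag)
            rw [(hst v hv).2]; exact tT v (hst v hv).1 w hw⟩)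
        fun v hv => hc
          (fun w hw _ => ⟨((q4 w hw).2 v hv).symm, by
            change Disjoint (rg (rc' v).tag) (rg (rc' w).tag)
            rw [(hst w hw).2]; exact (tT w (hst w hw).1 v hv).symm⟩)
          fun w hw hne => ⟨q5 v hv w hw hne, hpw v hv w hw hne⟩ }
  have hnw : new ⊆ s'.H := hH ▸ Finset.subset_union_right
  -- the layers
  have : Nonempty (Fm Λ q) := ⟨⟨0, fun α => α.elim0, fun α => α.elim0⟩⟩
  choose! Fc hFc using fun κ (hκ : κ ∈ cells) => exists_fm (q1 κ hκ).1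
  choose! LD lD oD sD using fun v (hv : v ∈ old) => exists_dec (h.ok v (hold hv)) D.ρ (pr v)
  choose! LC lC oC sC using fun κ (hκ : κ ∈ cells) => exists_cel (hFc κ hκ) D.ρ κ.pin κ.pout
  choose! LN lN oN sN using fun w (hw : w ∈ new) => exists_enc (hnew w hw).1 D.ρ (pr' w)
  set C : N336.Op Λ q := (cells.map fun κ => (Fc κ).G).reverse.prod with hC
  have mC : ∀ M ∈ (cells.map fun κ => (Fc κ).G).reverse, ∃ κ ∈ cells, M = (Fc κ).G := by
    intro M hM
    obtain ⟨κ, hκ, rfl⟩ := List.mem_map.1 (List.mem_reverse.1 hM)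
    exact ⟨κ, hκ, rfl⟩
  have nG : ∀ M ∈ (cells.map fun κ => (Fc κ).G).reverse, ‖M‖ ≤ 1 := fun M hM => by
    obtain ⟨κ, hκ, rfl⟩ := mC M hM
    exact (hFc κ hκ).norm_G
  have nC : ‖C‖ ≤ 1 := list_prod_le_one nG
  have cC : ‖ap C Ω - Ω‖ ≤ cells.length * ε := by
    have := close_prod (y := Ω) (ε := ε) nG fun M hM => by
      obtain ⟨κ, hκ, rfl⟩ := mC M hM
      exact (hFc κ hκ).close
    rwa [List.length_reverse, List.length_map] at this
  let Y : Finset Λ := Finset.univ.filter fun z => ∃ κ ∈ cells, z ∈ κ.O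
  have sC' : Sp Y C := Supp.list_prod fun M hM => by
    obtain ⟨κ, hκ, rfl⟩ := mC M hM
    exact (hFc κ hκ).sp.mono fun z hz => Finset.mem_filter.2 ⟨Finset.mem_univ _, κ, hκ, hz⟩
  obtain ⟨k1, k2⟩ := paint_an hΩ h h' hold hH hd (fun v hv => (hst v hv).2) nC sC'
    (fun v hv => Finset.disjoint_left.2 fun z hz hz' => by
      obtain ⟨κ, hκ, h1⟩ := (Finset.mem_filter.1 hz').2
      exact Finset.disjoint_left.1 ((q4 v hv).1 κ hκ) hz h1) cC
  set Fam := sq2 (sqA LD old.toList) (sq2 (sqA LC cells) (sqA LN new.toList.reverse)) with hFam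
  have hop : opF Fam = prodF new D'.E * em D.ρ C * (prodF old D.E)ᴴ := by
    rw [hFam, opF_sq2, opF_sq2, opF_sqA, opF_sqA, opF_sqA, List.map_reverse, List.reverse_reverse,
      prodF, prodF, conjTranspose_list_prod, hC, map_list_prod, List.map_reverse, List.map_map,
      List.map_map]
    congr 3
    · exact List.map_congr_left fun w hw => oN w (Finset.mem_toList.1 hw)
    · exact congrArg _ (List.map_congr_left fun κ hκ => oC κ hκ)
    · exact List.map_congr_left fun v hv => oD v (Finset.mem_toList.1 hv)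
  have nM : ‖prodF new D'.E * em D.ρ C * (prodF old D.E)ᴴ‖ ≤ 1 :=
    mul_le_one' (mul_le_one' (h'.norm_prod hnw) ((norm_em_le _ _).trans nC))
      (by rw [norm_ct]; exact h.norm_prod hold)
  obtain ⟨a1, a2⟩ := length_sqA LD old.toList (B := B) fun v hv => by
    have hv' := Finset.mem_toList.1 hv
    rw [lD v hv']; exact ⟨(h.ok v (hold hv')).nb_pos hΩ hε, (h.ok v (hold hv')).nb_le⟩
  obtain ⟨b1, b2⟩ := length_sqA LC cells (B := B) fun κ hκ => by
    rw [lC κ hκ]; exact ⟨(hFc κ hκ).nb_pos hΩ hε, (hFc κ hκ).nb_le⟩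
  obtain ⟨c1, c2⟩ := length_sqA LN new.toList.reverse (B := B) fun w hw => by
    have hw' := Finset.mem_toList.1 (List.mem_reverse.1 hw)
    rw [lN w hw']; exact ⟨(hnew w hw').1.nb_pos hΩ hε, (hnew w hw').1.nb_le⟩
  rw [Finset.length_toList] at a2
  rw [List.length_reverse, Finset.length_toList] at c2
  -- structure of the branches
  have uD : ∀ v ∈ old, ∀ b ∈ LD v, ∀ st ∈ b, st.A ⊆ D.S v := fun v hv b hb st hst => by
    obtain ⟨A, s1, s2, -, i2, rfl, e1, -, -, e2, -⟩ := sD v hv b hb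
    rcases List.mem_pair.1 hst with rfl | rfl
    · rw [e1]; exact Finset.subset_union_left
    · rw [e2]; exact (Finset.map_subset_map.2 i2).trans Finset.subset_union_right
  have uN : ∀ w ∈ new, ∀ b ∈ LN w, ∀ st ∈ b, st.A ⊆ D'.S w := fun w hw b hb st hst => by
    obtain ⟨A, s1, s2, -, i2, rfl, e1, -, -, e2, -⟩ := sN w hw b hb
    rcases List.mem_pair.1 hst with rfl | rfl
    · rw [e2]; exact (Finset.map_subset_map.2 i2).trans Finset.subset_union_right
    · rw [e1]; exact Finset.subset_union_left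
  have SD := sqA_spec LD (fun s s' => Disjoint s.A s'.A) 2 old.toList
    (fun v hv b hb => by
      have hv' := Finset.mem_toList.1 hv
      obtain ⟨A, s1, s2, -, -, rfl, e1, -, -, e2, -⟩ := sD v hv' b hb
      refine ⟨le_rfl, List.pairwise_pair.2 ?_⟩
      rw [e1, e2]; exact disjoint_map_rg (h.dT v (hold hv')))
    (pairwise_toList fun v hv w hw hne b hb b' hb' st hst st' hst' =>
      (h.disj (hold hv) (hold hw) hne).mono (uD v hv b hb st hst) (uD w hw b' hb' st' hst'))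
  have SN := sqA_spec LN (fun s s' => Disjoint s.A s'.A) 2 new.toList.reverse
    (fun w hw b hb => by
      have hw' := Finset.mem_toList.1 (List.mem_reverse.1 hw)
      obtain ⟨A, s1, s2, -, -, rfl, e1, -, -, e2, -⟩ := sN w hw' b hb
      refine ⟨le_rfl, List.pairwise_pair.2 ?_⟩
      rw [e1, e2]; exact (disjoint_map_rg (tρ w hw')).symm)
    (List.pairwise_reverse.2 (pairwise_toList fun v hv w hw hne b hb b' hb' st hst st' hst' =>
      (h'.disj (hnw hw) (hnw hv) hne.symm).mono (uN w hw b hb st hst) (uN v hv b' hb' st' hst')))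
  have SC := sqA_spec LC
    (fun s s' => ∀ r ∈ s.A, r ∈ s'.A → ∃ p, (s.Out p ∧ p ∈ I) ∧ s'.In p ∧ p ∈ I) 1 cells
    (fun κ hκ b hb => by
      obtain ⟨A, s1, -, -, rfl, -⟩ := sC κ hκ b hb
      exact ⟨le_rfl, List.pairwise_singleton _ _⟩)
    (pc.imp_of_mem fun {κ κ'} hκ hκ' hmeet b hb b' hb' st hst st' hst' r hr hr' => by
      obtain ⟨A, s1, -, i2, rfl, e1, -, e2⟩ := sC κ hκ b hb
      obtain ⟨A', s2, -, i2', rfl, e1', e2', -⟩ := sC κ' hκ' b' hb'
      obtain rfl := List.mem_singleton.1 hst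
      obtain rfl := List.mem_singleton.1 hst'
      rw [e1] at hr
      rw [e1'] at hr'
      obtain ⟨z, hz, rfl⟩ := Finset.mem_map.1 hr
      obtain ⟨p, m1, m2⟩ := hmeet fun hdj =>
        Finset.disjoint_left.1 hdj (i2 hz) (i2' ((Finset.mem_map' _).1 hr'))
      have := mm m1 (q1 κ hκ).2.2.2.1 (q1 κ hκ).2.2.2.2
      exact ⟨p, ⟨e2 p m1, this⟩, e2' p m2, this⟩)
  obtain ⟨g, hg1, hg2, hg3⟩ := exists_gate (I := I) (o := o) (o' := o') (B := B ^ ℓ) (ℓ := 2 * ℓ)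
    Fam (by rw [hFam, length_sq2, length_sq2]; exact Nat.mul_le_mul a1 (Nat.mul_le_mul b1 c1))
    (by
      rw [hFam, length_sq2, length_sq2]
      refine (Nat.mul_le_mul a2 (Nat.mul_le_mul b2 c2)).trans ?_
      rw [← pow_add, ← pow_add]
      exact Nat.pow_le_pow_right hB1 (by omega))
    (by
      intro b hb
      obtain ⟨bD, hbD, b', hb', rfl⟩ := mem_sq2.1 hb
      obtain ⟨bC, hbC, bN, hbN, rfl⟩ := mem_sq2.1 hb'
      obtain ⟨d0, d2, d1, d3⟩ := SD bD hbD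
      obtain ⟨e0, e2, e1, e3⟩ := SC bC hbC
      obtain ⟨n0, n2, n1, n3⟩ := SN bN hbN
      rw [Finset.length_toList] at d0
      rw [List.length_reverse, Finset.length_toList] at n0
      refine ⟨by simp only [List.length_append]; omega, paint_own (pr := pr) (pr' := pr')
        (T := fun v => rg (D.rc v).tag) (T' := fun w => rg (rc' w).tag) h.col o1 o3
        (fun v hv => ⟨h.dT v (hold hv), tT v (hold hv), fun r hr => ?_⟩)
        (fun w hw => ⟨tρ w hw, fun r hr => ⟨?_, ?_⟩⟩) (fun κ hκ => (q1 κ hκ).2)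
        (fun w hw => ⟨(q2 w hw).2.1, (q2 w hw).2.2.1, (q2 w hw).2.2.2.2⟩)
        (fun v hv => (q3 v hv).2.2.2) p4 p5 p6 p7 p8 p9 (fun st hst => ?_) d2 (fun v hv => ?_)
        (fun st hst => ?_) e2 (fun κ hκ => ?_) (fun st hst => ?_) n2 fun w hw => ?_⟩
      · obtain ⟨j, rfl⟩ := mem_rg.1 hr
        rw [h.tg v (hold hv)]; exact (q3 v hv).2.2.1
      · obtain ⟨y, rfl⟩ := mem_rg.1 ((hnew w hw).2 hr)
        exact ho ⟨_, (q2 w hw).2.1⟩ y
      · rw [o2 w hw r hr]; exact (q2 w hw).2.2.2.1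
      · obtain ⟨v, hv, b, hb, hst⟩ := d1 st hst
        have hv' := Finset.mem_toList.1 hv
        obtain ⟨A, s1, s2, -, i2, rfl, f1, f2, f3, f4, f5, f6⟩ := sD v hv' b hb
        rcases List.mem_pair.1 hst with rfl | rfl
        · exact ⟨f2, v, hv', Or.inl ⟨f1, f3⟩⟩
        · exact ⟨f5, v, hv', Or.inr ⟨f4 ▸ Finset.map_subset_map.2 i2, f6⟩⟩
      · obtain ⟨b, hb, hsub⟩ := d3 v (Finset.mem_toList.2 hv)
        obtain ⟨A, s1, s2, i1, -, rfl, -, -, -, f4, -⟩ := sD v hv b hb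
        exact ⟨s2, hsub (by simp), f4 ▸ Finset.map_subset_map.2 i1⟩
      · obtain ⟨κ, hκ, b, hb, hst⟩ := e1 st hst
        obtain ⟨A, s1, -, i2, rfl, f1, f2, f3⟩ := sC κ hκ b hb
        obtain rfl := List.mem_singleton.1 hst
        exact ⟨κ, hκ, f1 ▸ Finset.map_subset_map.2 i2, f2, f3⟩
      · obtain ⟨b, hb, hsub⟩ := e3 κ hκ
        obtain ⟨A, s1, i1, -, rfl, f1, -⟩ := sC κ hκ b hb
        exact ⟨s1, hsub (by simp), f1 ▸ Finset.map_subset_map.2 i1⟩
      · obtain ⟨w, hw, b, hb, hst⟩ := n1 st hst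
        have hw' := Finset.mem_toList.1 (List.mem_reverse.1 hw)
        obtain ⟨A, s1, s2, -, i2, rfl, f1, f2, f3, f4, f5, f6⟩ := sN w hw' b hb
        rcases List.mem_pair.1 hst with rfl | rfl
        · exact ⟨f5, w, hw', Or.inr ⟨f4 ▸ Finset.map_subset_map.2 i2, f6⟩⟩
        · exact ⟨f3, w, hw', Or.inl ⟨f1, f2⟩⟩
      · obtain ⟨b, hb, hsub⟩ := n3 w (List.mem_reverse.2 (Finset.mem_toList.2 hw))
        obtain ⟨A, s1, s2, i1, -, rfl, f1, -, -, f4, -⟩ := sN w hw b hb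
        exact ⟨⟨s2, hsub (by simp), f4 ▸ Finset.map_subset_map.2 i1⟩,
          s1, hsub (by simp), f1.ge⟩)
    (by rw [hop]; exact nM)
  refine ⟨g, o', hg1, hg2, fun r hr => o3 r (Finset.disjoint_right.1 h'.dF hr) fun w hw =>
    Finset.disjoint_right.1 (h'.dTF w (hnw hw)) hr, ?_⟩
  have hℓ' : (old.card : ℝ) + cells.length + new.card ≤ ℓ := by exact_mod_cast hℓ
  rw [hg3, hop]
  refine inv_of nM h' hx1 hx2 (k1.trans ?_) (k2.trans ?_)
  · nlinarith [Nat.cast_nonneg (α := ℝ) new.card]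
  · nlinarith [Nat.cast_nonneg (α := ℝ) old.card, Nat.cast_nonneg (α := ℝ) cells.length]

end Crest.Agent.N336.P.Snd
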