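import Crest.Agent.N336.P.Sound.Exch
import Crest.Agent.N336.P.Sound.Paint

/-!
# Row 336, soundness of plans: assembly, `sound : SoundStmt` (helper29)
-/

set_option autoImplicit false
set_option linter.unusedSectionVars false

open Matrix Finset
open scoped Matrix.Norms.L2Operator

namespace Crest.Agent.N336.P

open Crest.MathPhysics.LatticeSpin Crest.Agent.N336.Q

namespace Snd

variable {Λ Rg Pa : Type} [Fintype Λ] [DecidableEq Λ] [Fintype Rg] [DecidableEq Rg]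
  [DecidableEq Pa] {q nt : ℕ} [NeZero q]

lemma valid_mono {g : Gate Rg Pa q} {B B' ℓ ℓ' : ℕ} {o o' : Rg → Pa} (h : g.Valid B ℓ o o')
    (hB : B ≤ B') (hℓ : ℓ ≤ ℓ') : g.Valid B' ℓ' o o' :=
  ⟨h.1, h.2.1.trans hB, fun β => ⟨(h.2.2.1 β).1.trans hℓ, (h.2.2.1 β).2⟩, h.2.2.2⟩

lemma Inv.mono {Ω : N336.Vec Λ q} {B : ℕ} {ε δ δ' : ℝ} {Fr : Finset Rg} {o : Rg → Pa}
    {s : CSt Λ Pa} {x : N336.Vec Rg q} (h : Inv nt Ω B ε Fr o s δ x) (hδ : δ ≤ δ') :
    Inv nt Ω B ε Fr o s δ' x := by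
  obtain ⟨D, h1, h2, h3⟩ := h
  exact ⟨D, h1, h2.trans hδ, by linarith⟩

lemma run_congr {g g' : ℕ → Gate Rg Pa q} (ψ : N336.Vec Rg q) {t : ℕ}
    (h : ∀ t' < t, g' t' = g t') : run g' ψ t = run g ψ t := by
  induction t with
  | zero => rfl
  | succ t ih => rw [run, run, ih fun t' ht => h t' (by omega), h t (by omega)]

theorem move_step {Ω : N336.Vec Λ q} {B ℓ d : ℕ} {ε δ : ℝ} {Fr Fr' : Finset Rg} {I : Finset Pa}
    {o : Rg → Pa} {s s' : CSt Λ Pa} {x : N336.Vec Rg q} (hΩ : ‖Ω‖ = 1) (hε0 : 0 ≤ ε) (hε : ε < 1)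
    (hB1 : 1 ≤ B) (hℓ : 1 ≤ ℓ) (hB : B ≤ q ^ nt) (f : Λ ⊕ Fin ℓ × Fin nt ↪ Rg)
    (hF : Fr' ⊆ Fr) (hf : rg f ⊆ Fr) (hf' : Disjoint (rg f) Fr')
    (ho : I.Nonempty → ∀ y, o (f y) ∈ I)
    (hm : ExchMove (fun A F => Exch Ω A F ε) I s s' ∨ PaintMove (PatchFam Ω B ε) ℓ I s s' ∨
      FinMove d I s s') (hx : Inv nt Ω B ε Fr o s δ x) :
    ∃ (g : Gate Rg Pa q) (o' : Rg → Pa), g.I = I ∧ g.Valid (B ^ ℓ * q ^ d) (2 * ℓ) o o' ∧
      (∀ r ∈ Fr', o' r = o r) ∧ Inv nt Ω B ε Fr' o' s' (δ + ℓ * ε) (act g.op x) := by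
  have hq : 1 ≤ q ^ d := Nat.one_le_pow _ _ (Nat.pos_of_ne_zero (NeZero.ne q))
  have hBℓ : B ≤ B ^ ℓ := Nat.le_self_pow (by omega) B
  have hεℓ : δ + ε ≤ δ + ℓ * ε := by
    have : (1 : ℝ) ≤ ℓ := by exact_mod_cast hℓ
    nlinarith
  have sub : ∀ {κ : Type} [Fintype κ] [DecidableEq κ] (e : κ ↪ Λ ⊕ Fin ℓ × Fin nt),
      rg (e.trans f) ⊆ rg f := fun e => by rw [rg_trans]; exact map_subset_rg' _ _
  rcases hm with hm | hm | hm
  · obtain ⟨g, o', h1, h2, h3, h4⟩ := exch_step hΩ (Function.Embedding.inl.trans f) hF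
      ((sub _).trans hf) (hf'.mono_left (sub _)) (fun h z => ho h _) hm hx
    exact ⟨g, o', h1, valid_mono h2 (Nat.mul_le_mul (hB1.trans hBℓ) hq) (by omega), h3,
      h4.mono hεℓ⟩
  · obtain ⟨g, o', h1, h2, h3, h4⟩ := paint_step hΩ hε0 hε hB1 hB (Function.Embedding.inr.trans f)
      hF ((sub _).trans hf) (hf'.mono_left (sub _)) (fun h z => ho h _) hm hx
    exact ⟨g, o', h1, valid_mono h2 (Nat.le_mul_of_pos_right _ hq) le_rfl, h3, h4⟩
  · obtain ⟨g, h1, h2, h4⟩ := fin_step hΩ hε0 hε hF hm hx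
    exact ⟨g, o, h1, valid_mono h2 (Nat.mul_le_mul_right _ hBℓ) (by omega), fun _ _ => rfl,
      h4.mono hεℓ⟩

/-- indicator of zero outside the range of `ρ` -/
noncomputable def W0 (ρ : Λ ↪ Rg) : (Rg → Fin q) → ℂ :=
  fun σ => if off (d := fun _ => Fin q) (rg ρ) σ = 0 then 1 else 0

lemma indep_W0 (ρ : Λ ↪ Rg) : Indep (rg ρ) (W0 (q := q) ρ) := fun σ τ h => by
  rw [W0, W0, off_eq_iff.2 h]

lemma W0_ne {ρ : Λ ↪ Rg} {σ : Rg → Fin q} (h : W0 ρ σ ≠ 0) {r : Rg} (hr : r ∉ rg ρ) : σ r = 0 := by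
  have h1 : off (d := fun _ => Fin q) (rg ρ) σ = 0 := by
    by_contra h2
    exact h (if_neg h2)
  exact congrFun h1 ⟨r, hr⟩

lemma norm_W0 (ρ : Λ ↪ Rg) {Ω : N336.Vec Λ q} (hΩ : ‖Ω‖ = 1) : ‖tens ρ Ω (W0 ρ)‖ = 1 := by
  rw [← sq_eq_sq₀ (norm_nonneg _) zero_le_one, norm_tens_sq ρ Ω (indep_W0 ρ), hΩ,
    Finset.sum_eq_single 0]
  · simp [W0]
  · intro c _ hc; simp [W0, hc]
  · simp

lemma prod_W0 [Fintype Pa] (ρ : Λ ↪ Rg) (Ω : N336.Vec Λ q) (o : Rg → Pa) (root : Pa)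
    (h : ∀ z, o (ρ z) = root) : ∃ f : Pa → (Rg → Fin q) → ℂ,
    (∀ p σ σ', (∀ r, o r = p → σ r = σ' r) → f p σ = f p σ') ∧
      ∀ σ, tens ρ Ω (W0 ρ) σ = ∏ p, f p σ := by
  classical
  refine ⟨fun p σ => (if p = root then Ω (fun z => σ (ρ z)) else 1) *
    if ∀ r, r ∉ rg ρ → o r = p → σ r = 0 then 1 else 0, fun p σ σ' hσ => ?_, fun σ => ?_⟩
  · have h1 : (∀ r, r ∉ rg ρ → o r = p → σ r = 0) ↔ ∀ r, r ∉ rg ρ → o r = p → σ' r = 0 :=
      forall₃_congr fun r _ hr => by rw [hσ r hr]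
    simp only [h1]
    congr 1
    split_ifs with h2
    · exact congrArg _ (funext fun z => hσ _ (h2 ▸ h z))
    · rfl
  · rw [Finset.prod_mul_distrib, Finset.prod_ite_eq', if_pos (Finset.mem_univ _), tens_apply,
      Finset.prod_boole, W0]
    congr 1
    split_ifs with h1 h2 h2
    · rfl
    · exact absurd (fun p _ r hr _ => congrFun h1 ⟨r, hr⟩) h2
    · exact absurd (funext fun r : {r // r ∉ rg ρ} => h2 _ (Finset.mem_univ _) r.1 r.2 rfl) h1
    · rfl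

end Snd

open Snd in
/-- Soundness: a plan gives a gate network. -/
theorem sound : SoundStmt := by
  intro q Λ Pa _ _ _ _ Ω B n ℓ d ε fin I hq hΩ hB hℓ hε0 hε ⟨P⟩
  have : NeZero q := ⟨by omega⟩
  have hnℓ : (0 : ℝ) ≤ n * ℓ * ε := by positivity
  have hε1 : ε < 1 := by nlinarith
  have hBq : B ≤ q ^ B := (Nat.lt_pow_self (by omega)).le
  let Rg := Fin (n + 1) × (Λ ⊕ Fin ℓ × Fin B)
  let sl : Fin (n + 1) → (Λ ⊕ Fin ℓ × Fin B ↪ Rg) := fun t => Function.Embedding.sectR t _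
  let Fr : ℕ → Finset Rg := fun t => Finset.univ.filter fun r => t < r.1.val
  let o0 : Rg → Pa := fun r =>
    if h : r.1.val ≠ 0 ∧ (I (r.1.val - 1)).Nonempty then h.2.choose else P.root
  let ρ0 : Λ ↪ Rg := Function.Embedding.inl.trans (sl 0)
  have hρ0 : ∀ z, o0 (ρ0 z) = P.root := fun z => dif_neg fun h => h.1 rfl
  have dρ0 : Disjoint (rg ρ0) (Fr 0) := by
    rw [Finset.disjoint_left]
    intro r h1 h2
    obtain ⟨z, rfl⟩ := mem_rg.1 h1
    exact absurd (Finset.mem_filter.1 h2).2 (lt_irrefl 0)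
  let ψ₀ : N336.Vec Rg q := tens ρ0 Ω (W0 ρ0)
  have key : ∀ t ≤ n, ∃ (g : ℕ → Gate Rg Pa q) (own : ℕ → Rg → Pa), own 0 = o0 ∧
      (∀ t' < t, (g t').I = I t' ∧ (g t').Valid (B ^ ℓ * q ^ d) (2 * ℓ) (own t') (own (t' + 1))) ∧
      (∀ r ∈ Fr t, own t r = o0 r) ∧
      Inv B Ω B ε (Fr t) (own t) (P.st t) (t * ℓ * ε) (run g ψ₀ t) := by
    intro t
    induction t with
    | zero =>
      intro _
      let R : Rec Λ Rg q B := ⟨⟨0, fun α => α.elim0, fun α => α.elim0⟩,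
        ((Function.Embedding.sectR (⟨0, hℓ⟩ : Fin ℓ) _).trans Function.Embedding.inr).trans (sl 0),
        Function.Embedding.ofIsEmpty⟩
      have hH : ∀ v, v ∉ (P.st 0).H := by simp [P.H₀]
      refine ⟨fun _ => ⟨∅, 0, fun β => β.elim0⟩, fun _ => o0, rfl, by simp, fun _ _ => rfl,
        ⟨ρ0, W0 ρ0, fun _ => R⟩,
        { ind := indep_W0 ρ0
          zF := fun σ hσ r hr => W0_ne hσ (Finset.disjoint_right.1 dρ0 hr)
          zT := fun v hv => absurd hv (hH v)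
          nrm := (norm_W0 ρ0 hΩ).le
          dF := dρ0
          col := fun z => by rw [P.col₀]; exact hρ0 z
          ok := fun v hv => absurd hv (hH v)
          tg := fun v hv => absurd hv (hH v)
          dT := fun v hv => absurd hv (hH v)
          dTF := fun v hv => absurd hv (hH v)
          pw := fun v hv => absurd hv (hH v) }, ?_, ?_⟩
      · simp [Dat.vec, P.H₀, run, ψ₀]
      · simp [Dat.vec, P.H₀, norm_W0 ρ0 hΩ]
    | succ t ih =>
      intro ht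
      obtain ⟨g, own, h0, h1, h2, h3⟩ := ih (by omega)
      have hsl : ∀ y, sl ⟨t + 1, by omega⟩ y ∈ Fr t := fun y =>
        Finset.mem_filter.2 ⟨Finset.mem_univ _, Nat.lt_succ_self t⟩
      have hFr : Fr (t + 1) ⊆ Fr t := fun r hr =>
        Finset.mem_filter.2 ⟨Finset.mem_univ _, Nat.lt_of_succ_lt (Finset.mem_filter.1 hr).2⟩
      obtain ⟨G, o', k1, k2, k3, k4⟩ := move_step (d := d) (Fr' := Fr (t + 1)) hΩ hε0 hε1 hB hℓ hBq
        (sl ⟨t + 1, by omega⟩) hFr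
        (fun r hr => by obtain ⟨y, rfl⟩ := mem_rg.1 hr; exact hsl y)
        (Finset.disjoint_left.2 fun r hr hr' => by
          obtain ⟨y, rfl⟩ := mem_rg.1 hr
          exact absurd (Finset.mem_filter.1 hr').2 (lt_irrefl (t + 1)))
        (fun hI y => by
          have h4 : t + 1 ≠ 0 ∧ (I (t + 1 - 1)).Nonempty := ⟨Nat.succ_ne_zero t, hI⟩
          rw [h2 _ (hsl y)]
          have h5 : o0 (sl ⟨t + 1, by omega⟩ y) = h4.2.choose := dif_pos h4
          rw [h5]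
          exact h4.2.choose_spec)
        (P.move t ht) h3
      refine ⟨Function.update g t G, Function.update own (t + 1) o', ?_, fun t' ht' => ?_,
        fun r hr => ?_, ?_⟩
      · rw [Function.update_of_ne (by omega), h0]
      · rcases Nat.lt_succ_iff_lt_or_eq.1 ht' with ht' | rfl
        · rw [Function.update_of_ne ht'.ne, Function.update_of_ne (by omega),
            Function.update_of_ne (by omega)]
          exact h1 t' ht'
        · rw [Function.update_self, Function.update_self, Function.update_of_ne (by omega)]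
          exact ⟨k1, k2⟩
      · rw [Function.update_self, k3 r hr, h2 r (hFr hr)]
      · rw [Function.update_self, run, Function.update_self,
          run_congr ψ₀ fun t' ht' => Function.update_of_ne ht'.ne _ _]
        exact k4.mono (le_of_eq (by push_cast; ring))
  obtain ⟨g, own, h0, h1, -, D, hD, h3, h4⟩ := key n le_rfl
  have hv : D.vec Ω (P.st n).H = tens D.ρ Ω D.W := by simp [Dat.vec, P.Hₙ]
  rw [hv] at h3 h4
  have h5 := hD.nrm
  set y := tens D.ρ Ω D.W with hy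
  have h6 : 0 < ‖y‖ := by nlinarith
  refine ⟨{
    Rg := Rg
    g := g
    own := own
    hI := fun t ht => (h1 t ht).1
    valid := fun t ht => (h1 t ht).2
    ψ₀ := ψ₀
    norm₀ := (norm_W0 ρ0 hΩ).le
    prod₀ := by rw [h0]; exact prod_W0 ρ0 Ω o0 P.root hρ0
    ι := D.ρ
    hfin := fun z => by rw [hD.col, P.colₙ]
    tgt := ((‖y‖⁻¹ : ℝ) : ℂ) • y
    norm_tgt := by
      rw [norm_smul, Complex.norm_real, norm_inv, norm_norm, inv_mul_cancel₀ h6.ne']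
    junk := ⟨fun σ => ((‖y‖⁻¹ : ℝ) : ℂ) * D.W σ, fun σ σ' h =>
      congrArg _ (hD.ind σ σ' fun r hr => h r fun hr' => hr (mem_rg.2 hr')), fun σ => by
        rw [PiLp.smul_apply, hy, tens_apply, smul_eq_mul]; ring⟩
    close := ?_ }⟩
  have h7 : ‖y - ((‖y‖⁻¹ : ℝ) : ℂ) • y‖ = 1 - ‖y‖ := by
    have e : y - ((‖y‖⁻¹ : ℝ) : ℂ) • y = ((1 - ‖y‖⁻¹ : ℝ) : ℂ) • y := by
      push_cast; rw [sub_smul, one_smul]
    rw [e, norm_smul, Complex.norm_real, Real.norm_eq_abs,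
      abs_of_nonpos (sub_nonpos.2 (one_le_inv₀ h6 |>.2 h5))]
    field_simp
    ring
  have h8 := norm_sub_le_norm_sub_add_norm_sub (run g ψ₀ n) y (((‖y‖⁻¹ : ℝ) : ℂ) • y)
  nlinarith

end Crest.Agent.N336.P
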