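import Crest.Agent.N336.P.Sound.Inv

/-!
# Row 336, soundness of plans: the exchange move (helper29)
-/

set_option autoImplicit false
set_option linter.unusedSectionVars false

open Matrix Finset
open scoped Matrix.Norms.L2Operator

namespace Crest.Agent.N336.P.Snd

open Crest.MathPhysics.LatticeSpin Crest.Agent.N336.Q

variable {Λ Rg Pa : Type} [Fintype Λ] [DecidableEq Λ] [Fintype Rg] [DecidableEq Rg]
  [DecidableEq Pa] {q nt : ℕ} [NeZero q]

/-- the two readings of the double sheet -/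
def swE (A : Finset Λ) : (Bool × Λ → Fin q) ≃ (Λ → Fin q) × (Λ → Fin q) where
  toFun σ := (fun x => σ (decide (x ∈ A), x), fun x => σ (!decide (x ∈ A), x))
  invFun p := fun y => if y.1 = decide (y.2 ∈ A) then p.1 y.2 else p.2 y.2
  left_inv σ := by
    funext ⟨b, x⟩
    by_cases h : x ∈ A <;> cases b <;> simp [h]
  right_inv p := by
    ext x <;> by_cases h : x ∈ A <;> simp [h]

lemma norm_swp (A : Finset Λ) {Ω : N336.Vec Λ q} (hΩ : ‖Ω‖ = 1) : ‖swp A Ω‖ = 1 := by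
  have h1 : ∑ σ, ‖Ω σ‖ ^ 2 = 1 := by rw [← EuclideanSpace.norm_sq_eq, hΩ, one_pow]
  rw [← sq_eq_sq₀ (norm_nonneg _) zero_le_one, one_pow, EuclideanSpace.norm_sq_eq]
  have h2 : ∀ σ, ‖swp A Ω σ‖ ^ 2 = ‖Ω (swE A σ).1‖ ^ 2 * ‖Ω (swE A σ).2‖ ^ 2 := fun σ => by
    rw [← mul_pow, ← norm_mul]; rfl
  simp only [h2]
  rw [(swE A).sum_comp fun p => ‖Ω p.1‖ ^ 2 * ‖Ω p.2‖ ^ 2, Fintype.sum_prod_type]
  simp only [← Finset.mul_sum, h1, mul_one]

/-- the double sheet -/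
def dbl (ρ f : Λ ↪ Rg) (h : Disjoint (rg ρ) (rg f)) : Bool × Λ ↪ Rg where
  toFun y := if y.1 then f y.2 else ρ y.2
  inj' := by
    rintro ⟨b, x⟩ ⟨c, y⟩ e
    have h1 : ∀ x y, ρ x ≠ f y := fun x y e =>
      Finset.disjoint_left.1 h (apply_mem_rg ρ x) (e ▸ apply_mem_rg f y)
    cases b <;> cases c <;> simp only [Bool.false_eq_true, if_true, if_false] at e
    · rw [ρ.injective e]
    · exact absurd e (h1 _ _)
    · exact absurd e.symm (h1 _ _)
    · rw [f.injective e]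

/-- the sheet reading `c` on `A` and `!c` elsewhere -/
def sel (A : Finset Λ) (c : Bool) : Λ ↪ Bool × Λ :=
  ⟨fun x => (if c then decide (x ∈ A) else !decide (x ∈ A), x), fun _ _ e => congrArg Prod.snd e⟩

lemma disjoint_sel (A : Finset Λ) : Disjoint (rg (sel A true)) (rg (sel A false)) := by
  rw [Finset.disjoint_left]
  intro y h h'
  obtain ⟨x, rfl⟩ := mem_rg.1 h
  obtain ⟨x', e⟩ := mem_rg.1 h'
  obtain rfl : x' = x := congrArg Prod.snd e
  have := congrArg Prod.fst e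
  simp [sel] at this

lemma tens_swp (e : Bool × Λ ↪ Rg) (A : Finset Λ) (Ω : N336.Vec Λ q) (W : (Rg → Fin q) → ℂ) :
    tens e (swp A Ω) W =
      tens ((sel A true).trans e) Ω (tens ((sel A false).trans e) Ω W) := by
  ext σ
  exact mul_assoc _ _ _

/-- `W` with the registers `f` set to zero -/
noncomputable def zer (f : Λ ↪ Rg) (W : (Rg → Fin q) → ℂ) : (Rg → Fin q) → ℂ :=
  fun σ => W ((eqv f fun _ => Fin q).symm (0, off (rg f) σ))

lemma Zr.zer {f : Λ ↪ Rg} {W : (Rg → Fin q) → ℂ} {Y : Finset Rg} (h : Zr Y W)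
    (hd : Disjoint Y (rg f)) : Zr Y (zer f W) := fun σ hσ r hr => by
  rw [← symm_apply_off f σ 0 (Finset.disjoint_left.1 hd hr)]
  exact h _ hσ r hr

lemma Indep.zer {f : Λ ↪ Rg} {W : (Rg → Fin q) → ℂ} {Y : Finset Rg} (h : Indep Y W) :
    Indep (Y ∪ rg f) (zer f W) := fun σ τ hστ => by
  refine h _ _ fun r hr => ?_
  by_cases hx : r ∈ rg f
  · obtain ⟨k, rfl⟩ := mem_rg.1 hx
    rw [symm_apply_e, symm_apply_e]
  · rw [symm_apply_off _ _ _ hx, symm_apply_off _ _ _ hx]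
    exact hστ r (by simp only [Finset.mem_union, not_or]; exact ⟨hr, hx⟩)

lemma Indep.tens {e : Λ ↪ Rg} {Y : Finset Rg} {W : (Rg → Fin q) → ℂ} (h : Indep Y W)
    (hd : Disjoint Y (rg e)) (φ : N336.Vec Λ q) : Indep Y (tens e φ W) := fun σ τ hστ => by
  rw [tens_apply, tens_apply, h σ τ hστ]
  exact congrArg (· * W τ) (indep_res hd φ σ τ hστ)

lemma src_tens (ρ f : Λ ↪ Rg) (h : Disjoint (rg ρ) (rg f)) (Ω : N336.Vec Λ q)
    (W : (Rg → Fin q) → ℂ) : ap (em f (kt Ω (bv 0 1))) (tens ρ Ω W) =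
      tens (dbl ρ f h) (swp ∅ Ω) (zer f W) := by
  ext σ
  rw [ap_em_kt_zero, tens_apply, tens_apply]
  have h1 : (fun k => (eqv f fun _ => Fin q).symm (0, off (rg f) σ) (ρ k)) = fun k => σ (ρ k) :=
    funext fun k => symm_apply_off _ _ _ (Finset.disjoint_left.1 h (apply_mem_rg ρ k))
  rw [h1, ← mul_assoc, mul_comm (Ω _)]
  have h2 : swp ∅ Ω (fun k => σ (dbl ρ f h k)) = Ω (fun k => σ (ρ k)) * Ω fun k => σ (f k) := by
    simp only [swp, Finset.notMem_empty, decide_false, Bool.not_false]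
    rfl
  rw [h2]; rfl

lemma rg_dbl (ρ f : Λ ↪ Rg) (h : Disjoint (rg ρ) (rg f)) : rg (dbl ρ f h) ⊆ rg ρ ∪ rg f := by
  intro r hr
  obtain ⟨⟨b, x⟩, rfl⟩ := mem_rg.1 hr
  cases b
  · exact Finset.mem_union_left _ (apply_mem_rg ρ x)
  · exact Finset.mem_union_right _ (apply_mem_rg f x)

lemma map_subset_rg' {κ : Type} [Fintype κ] (e : κ ↪ Rg) (O : Finset κ) : O.map e ⊆ rg e :=
  Finset.map_subset_map.2 (Finset.subset_univ O)

theorem exch_step {Ω : N336.Vec Λ q} {B : ℕ} {ε δ : ℝ} {Fr Fr' : Finset Rg} {I : Finset Pa}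
    {o : Rg → Pa} {s s' : CSt Λ Pa} {x : N336.Vec Rg q} (hΩ : ‖Ω‖ = 1) (f : Λ ↪ Rg)
    (hF : Fr' ⊆ Fr) (hf : rg f ⊆ Fr) (hf' : Disjoint (rg f) Fr')
    (ho : I.Nonempty → ∀ z, o (f z) ∈ I) (hm : ExchMove (fun A F => Exch Ω A F ε) I s s')
    (hx : Inv nt Ω B ε Fr o s δ x) :
    ∃ (g : Gate Rg Pa q) (o' : Rg → Pa), g.I = I ∧ g.Valid 1 2 o o' ∧ (∀ r ∈ Fr', o' r = o r) ∧
      Inv nt Ω B ε Fr' o' s' (δ + ε) (act g.op x) := by
  obtain ⟨A, F, u, p, hAF, ⟨U, hU, hUs, hUe⟩, hu, hp, hbuf, hH, hcol, hH'⟩ := hm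
  obtain ⟨D, h, hx1, hx2⟩ := hx
  have ho' := ho ⟨u, hu⟩
  have hρf : Disjoint (rg D.ρ) (rg f) := h.dF.mono_right hf
  have hρf' : ∀ z, D.ρ z ∉ rg f := fun z => Finset.disjoint_left.1 hρf (apply_mem_rg _ z)
  set ρ2 := dbl D.ρ f hρf with hρ2
  set Y := Finset.univ.filter fun y : Bool × Λ => y.2 ∉ A ∧ y.2 ∉ F with hY
  have hUY : Sp Y U := isSupportedOn_iff.1 hUs
  obtain ⟨m, hm⟩ := hUY.exists_lift
  have hm' : em (sb Y) m = U := hm
  have hUU : Uᴴ * U = 1 := Matrix.mem_unitaryGroup_iff'.1 hU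
  have nU : ‖U‖ ≤ 1 := norm_le_one_of_ct (by rw [hUU]; exact norm_one_le)
  have nm : ‖m‖ ≤ 1 := by rw [← norm_em (sb Y) m, hm']; exact nU
  have nΩ : ∑ σ, ‖Ω σ‖ ^ 2 = 1 := by rw [← EuclideanSpace.norm_sq_eq, hΩ, one_pow]
  -- the gate
  let o' : Rg → Pa := fun r => if r ∈ A.map f then p else if r ∈ rg f then u else o r
  have o1 : ∀ r, r ∉ rg f → o' r = o r := fun r hr => by
    simp only [o', if_neg hr, if_neg fun h => hr (map_subset_rg f A h)]
  have o2 : ∀ z, o' (f z) = if z ∈ A then p else u := fun z => by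
    simp only [o', Finset.mem_map' f, apply_mem_rg, if_true]
  let s1 : PS Rg Pa q := PS.rk f Ω (bv 0 1) (fun _ => True) (fun p' => Mem p' (u, p)) nΩ.le
    (by simp [sum_bv]) (Or.inr ⟨0, 1, rfl⟩) (Or.inl ⟨(u, p), fun _ h => h⟩)
  let s2 : PS Rg Pa q := PS.pv ((sb Y).trans ρ2) m u nm
  have hs2 : ∀ r ∈ s2.A, ∃ z, z ∉ A ∧ z ∉ F ∧ (r = D.ρ z ∨ r = f z) := by
    intro r hr
    obtain ⟨⟨⟨b, z⟩, hy⟩, rfl⟩ := mem_rg.1 hr
    have hy' := (Finset.mem_filter.1 hy).2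
    refine ⟨z, hy'.1, hy'.2, ?_⟩
    cases b
    · exact Or.inl rfl
    · exact Or.inr rfl
  have hfeas : Feas I o o' [s1, s2] := by
    refine own (l := [s1, s2]) ⟨fun r hr => ?_, fun r hr => ⟨u, rfl, hu, ?_⟩, trivial⟩ fun r => ?_
    · obtain ⟨z, rfl⟩ := mem_rg.1 hr
      by_cases h2 : f z ∈ s2.A
      · exact ⟨u, Or.inl rfl, hu, by rw [req, if_pos h2]; exact ⟨rfl, hu⟩⟩
      · refine ⟨o' (f z), ?_, ?_, by rw [req, if_neg h2]; rfl⟩ <;> rw [o2] <;> split_ifs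
        exacts [Or.inr rfl, Or.inl rfl, hp, hu]
    · obtain ⟨z, h1, h2, rfl | rfl⟩ := hs2 r hr
      · change u = o' _
        rw [o1 _ (hρf' z), h.col, hbuf z h1 h2]
      · change u = o' _
        rw [o2, if_neg h1]
    · by_cases h1 : r ∈ s1.A
      · rw [req, if_pos h1]
        obtain ⟨z, rfl⟩ := mem_rg.1 h1
        exact ⟨trivial, ho' z⟩
      · rw [req, if_neg h1]
        by_cases h2 : r ∈ s2.A
        · rw [req, if_pos h2]
          obtain ⟨z, h3, h4, rfl | rfl⟩ := hs2 r h2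
          · rw [h.col, hbuf z h3 h4]; exact ⟨rfl, hu⟩
          · exact absurd (apply_mem_rg f z) h1
        · rw [req, if_neg h2]
          exact (o1 r h1).symm
  set S := em f (kt Ω (bv 0 1)) with hS
  have nS : ‖S‖ ≤ 1 := (norm_em_le _ _).trans (norm_kt_le nΩ.le (by simp [sum_bv]))
  have nM : ‖em ρ2 U * S‖ ≤ 1 := mul_le_one' ((norm_em_le _ _).trans nU) nS
  have hop : opF [[s1, s2]] = em ρ2 U * S := by
    simp only [opF, opP, List.map_cons, List.map_nil, List.sum_cons, List.sum_nil, add_zero,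
      Matrix.one_mul]
    rw [show s1.op = S from PS.rk_op .., show s2.op = _ from PS.pv_op .., ← em_em, hm']
  obtain ⟨g, hg1, hg2, hg3⟩ := exists_gate (I := I) (o := o) (o' := o') (B := 1) (ℓ := 2)
    [[s1, s2]] le_rfl le_rfl (by simpa using hfeas) (by rw [hop]; exact nM)
  refine ⟨g, o', hg1, hg2, fun r hr => o1 r (Finset.disjoint_right.1 hf' hr), ?_⟩
  -- the new data
  set HA := s.H.filter fun v => ¬ v.O ⊆ F with hHA
  have hHA1 : HA ⊆ s.H := Finset.filter_subset _ _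
  have hs' : s'.H ⊆ s.H := hH' ▸ Finset.filter_subset _ _
  have hsF : ∀ v ∈ s'.H, v.O ⊆ F := fun v hv => by
    rw [hH'] at hv; exact (Finset.mem_filter.1 hv).2
  have hdj : Disjoint s'.H HA := hH' ▸ Finset.disjoint_filter_filter_not _ _ _
  have hun : s'.H ∪ HA = s.H := hH' ▸ Finset.filter_union_filter_not_eq _ _
  set ρ' := (sel A true).trans ρ2 with hρ'
  set ρ'' := (sel A false).trans ρ2 with hρ''
  have r1 : ∀ z, ρ' z = if z ∈ A then f z else D.ρ z := fun z => by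
    change (if (decide (z ∈ A)) then f z else D.ρ z) = _
    by_cases hz : z ∈ A <;> simp [hz]
  have r2 : rg ρ' ⊆ rg D.ρ ∪ rg f := by
    rw [hρ', rg_trans]; exact (map_subset_rg' _ _).trans (rg_dbl _ _ _)
  have r3 : Disjoint (rg ρ') (rg ρ'') := by
    rw [hρ', hρ'', rg_trans, rg_trans, Finset.disjoint_map]; exact disjoint_sel A
  have dT : ∀ v ∈ s.H, Disjoint (rg (D.rc v).tag) (rg D.ρ ∪ rg f) := fun v hv =>
    Finset.disjoint_union_right.2 ⟨h.dT v hv, (h.dTF v hv).mono_right hf⟩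
  have dS : ∀ v ∈ s.H, Disjoint (D.S v) Fr := fun v hv =>
    Finset.disjoint_union_left.2 ⟨h.dTF v hv, h.dF.mono_left (map_subset_rg _ _)⟩
  have dA : Disjoint (HA.biUnion D.S) (rg ρ') := by
    rw [Finset.disjoint_biUnion_left]
    intro v hv
    obtain ⟨hv1, hv2⟩ := Finset.mem_filter.1 hv
    refine Finset.disjoint_union_left.2 ⟨(dT v hv1).mono_right r2, ?_⟩
    rw [Finset.disjoint_left]
    intro r h1 h2
    obtain ⟨z, hz, rfl⟩ := Finset.mem_map.1 h1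
    obtain ⟨z', e⟩ := mem_rg.1 h2
    rw [r1] at e
    split_ifs at e with h3
    · exact hρf' z (e ▸ apply_mem_rg f z')
    · exact h3 (D.ρ.injective e ▸ ((hH v hv1).resolve_right hv2) hz)
  set W' := zer f D.W with hW'
  have iW' : Indep (rg D.ρ ∪ rg f) W' := h.ind.zer
  have iW2 : Indep (rg ρ2) W' := iW'.mono (rg_dbl _ _ _)
  have n0 : ‖tens ρ2 (swp ∅ Ω) W'‖ ≤ 1 := by
    rw [← src_tens]; exact (ap_le_of_le_one nS _).trans h.nrm
  set PA := prodF HA D.E with hPA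
  have key : ap PA (tens ρ2 (swp A Ω) W') = tens ρ' Ω (ap PA (tens ρ'' Ω W')) := by
    rw [tens_swp, ap_tens (h.sp_prod hHA1) dA]
  let D' : Dat Λ Rg Pa q nt := ⟨ρ', ap PA (tens ρ'' Ω W'), D.rc⟩
  have hE : ∀ v ∈ s'.H, D'.E v = D.E v := fun v hv => E_congr (h.ok v (hs' hv)) fun z hz => by
    change ρ' z = _
    rw [r1, if_neg (Finset.disjoint_right.1 hAF (hsF v hv hz))]
  have zz : ∀ T : Finset Rg, Zr T D.W → Disjoint T (rg f) → Disjoint (HA.biUnion D.S) T →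
      Zr T D'.W := fun T h1 h2 h3 =>
    Zr.ap (h.sp_prod hHA1) h3 ((h1.zer h2).mul_left _)
  have h' : D'.OK Ω B ε Fr' o' s' :=
    { ind := Indep.ap (h.sp_prod hHA1) dA ((iW'.mono r2).tens r3 Ω)
      zF := zz _ (h.zF.mono hF) hf'.symm (by
        rw [Finset.disjoint_biUnion_left]; exact fun v hv => (dS v (hHA1 hv)).mono_right hF)
      zT := fun v hv => zz _ (h.zT v (hs' hv)) ((h.dTF v (hs' hv)).mono_right hf) (by
        rw [Finset.disjoint_biUnion_left]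
        exact fun w hw => (h.disj (hHA1 hw) (hs' hv) fun e =>
          Finset.disjoint_left.1 hdj hv (e ▸ hw)).mono_right Finset.subset_union_left)
      nrm := by
        change ‖tens ρ' Ω (ap PA (tens ρ'' Ω W'))‖ ≤ 1
        rw [← key]
        refine (ap_le_of_le_one (h.norm_prod hHA1) _).trans ?_
        rw [norm_tens ρ2 _ (norm_swp ∅ hΩ) iW2, norm_swp A hΩ, one_mul]
        exact n0
      dF := (Finset.disjoint_union_left.2 ⟨h.dF.mono_right hF, hf'⟩).mono_left r2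
      col := fun z => by
        change o' (ρ' z) = _
        rw [r1, hcol]
        split_ifs with hz
        · rw [o2, if_pos hz]
        · rw [o1 _ (hρf' z), h.col]
      ok := fun v hv => h.ok v (hs' hv)
      tg := fun v hv j => by
        change o' ((D.rc v).tag j) = _
        rw [o1 _ (Finset.disjoint_left.1 ((h.dTF v (hs' hv)).mono_right hf) (apply_mem_rg _ j)),
          h.tg v (hs' hv)]
      dT := fun v hv => (dT v (hs' hv)).mono_right r2
      dTF := fun v hv => (h.dTF v (hs' hv)).mono_right hF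
      pw := fun v hv w hw => h.pw v (hs' hv) w (hs' hw) }
  set P := prodF s.H D.E with hP
  have nP : ‖P‖ ≤ 1 := h.norm_prod subset_rfl
  have hv' : D'.vec Ω s'.H = ap P (tens ρ2 (swp A Ω) W') := by
    rw [Dat.vec, prodF_congr hE, hP, ← hun, h.split hdj hun.subset, ap_mul, key]
  have c1 : Commute P S := (h.sp_prod subset_rfl).commute (sp_em _ _) (by
    rw [Finset.disjoint_biUnion_left]; exact fun v hv => (dS v hv).mono_right hf)
  have c2 : Commute P (em ρ2 U) := (h.sp_prod subset_rfl).commute (hUY.em ρ2) (by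
    rw [Finset.disjoint_biUnion_left]
    intro v hv
    refine Finset.disjoint_union_left.2
      ⟨(dT v hv).mono_right ((map_subset_rg' _ _).trans (rg_dbl _ _ _)), ?_⟩
    rw [Finset.disjoint_left]
    intro r h1 h2
    obtain ⟨z, hz, rfl⟩ := Finset.mem_map.1 h1
    obtain ⟨⟨b, z'⟩, hy, e⟩ := Finset.mem_map.1 h2
    have hy' := (Finset.mem_filter.1 hy).2
    cases b
    · obtain rfl : z' = z := D.ρ.injective e
      rcases hH v hv with h3 | h3
      exacts [hy'.1 (h3 hz), hy'.2 (h3 hz)]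
    · exact hρf' z (e ▸ apply_mem_rg f z'))
  have k1 : ‖ap (em ρ2 U * S) (D.vec Ω s.H) - D'.vec Ω s'.H‖ ≤ ε := by
    rw [hv', Dat.vec, ← ap_mul, ← (c2.mul_right c1).eq, ap_mul, ap_mul, src_tens _ _ hρf,
      ap_em_tens _ _ _ iW2, ← map_sub, ← tens_sub]
    refine (ap_le_of_le_one nP _).trans ?_
    rw [norm_tens ρ2 _ (norm_swp ∅ hΩ) iW2]
    have := norm_nonneg (ap U (swp ∅ Ω) - swp A Ω)
    have h3 : ‖ap U (swp ∅ Ω) - swp A Ω‖ ≤ ε := hUe
    nlinarith [norm_nonneg (tens ρ2 (swp ∅ Ω) W')]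
  have k2 : ‖D.vec Ω s.H‖ ≤ ‖ap (em ρ2 U * S) (D.vec Ω s.H)‖ := by
    have z1 : Zr (rg f) (D.vec Ω s.H) := Zr.ap (h.sp_prod subset_rfl) (by
      rw [Finset.disjoint_biUnion_left]; exact fun v hv => (dS v hv).mono_right hf)
      ((h.zF.mono hf).mul_left _)
    have e : (em ρ2 U * S)ᴴ * (em ρ2 U * S) = em f (kt (bv 0 1) (bv 0 1)) := by
      rw [conjTranspose_mul, Matrix.mul_assoc, ← Matrix.mul_assoc (em ρ2 U)ᴴ, ← em_ct ρ2, ← map_mul,
        hUU, map_one, Matrix.one_mul, hS, ← em_ct, ← map_mul, kt_ct, kt_mul, sum_star_self, nΩ]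
      simp
    conv_lhs => rw [← z1.fix, ← e, ap_mul]
    exact ap_le_of_le_one (by rwa [norm_ct]) _
  rw [hg3, hop]
  refine inv_of nM h' hx1 hx2 k1 ?_
  have := norm_sub_norm_le (ap (em ρ2 U * S) (D.vec Ω s.H)) (D'.vec Ω s'.H)
  linarith

end Crest.Agent.N336.P.Snd
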