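import Crest.Agent.N336.P.Sound.Rec

/-!
# Row 336, soundness of plans: the invariant and the analytic part of the moves (helper29)
-/

set_option autoImplicit false
set_option linter.unusedSectionVars false

open Matrix Finset
open scoped Matrix.Norms.L2Operator

namespace Crest.Agent.N336.P.Snd

open Crest.MathPhysics.LatticeSpin Crest.Agent.N336.Q

variable {Λ Rg Pa : Type} [Fintype Λ] [DecidableEq Λ] [Fintype Rg] [DecidableEq Rg]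
  [DecidableEq Pa] {q nt : ℕ} [NeZero q]

/-- Data of the ideal state: main sheet, junk factor, records of the holes. -/
structure Dat (Λ Rg Pa : Type) (q nt : ℕ) where
  ρ : Λ ↪ Rg
  W : (Rg → Fin q) → ℂ
  rc : Hole Λ Pa → Rec Λ Rg q nt

/-- The structural invariant. -/
structure Dat.OK (D : Dat Λ Rg Pa q nt) (Ω : N336.Vec Λ q) (B : ℕ) (ε : ℝ) (Fr : Finset Rg)
    (o : Rg → Pa) (s : CSt Λ Pa) : Prop where
  ind : Indep (rg D.ρ) D.W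
  zF : Zr Fr D.W
  zT : ∀ v ∈ s.H, Zr (rg (D.rc v).tag) D.W
  nrm : ‖tens D.ρ Ω D.W‖ ≤ 1
  dF : Disjoint (rg D.ρ) Fr
  col : ∀ z, o (D.ρ z) = s.col z
  ok : ∀ v ∈ s.H, (D.rc v).toFm.OK Ω B ε v.I v.O
  tg : ∀ v ∈ s.H, ∀ j, o ((D.rc v).tag j) = v.tg
  dT : ∀ v ∈ s.H, Disjoint (rg (D.rc v).tag) (rg D.ρ)
  dTF : ∀ v ∈ s.H, Disjoint (rg (D.rc v).tag) Fr
  pw : ∀ v ∈ s.H, ∀ w ∈ s.H, v ≠ w →
    Disjoint v.O w.O ∧ Disjoint (rg (D.rc v).tag) (rg (D.rc w).tag)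

/-- encoder of a hole -/
noncomputable def Dat.E (D : Dat Λ Rg Pa q nt) (v : Hole Λ Pa) : N336.Op Rg q := (D.rc v).E D.ρ

/-- registers of a hole -/
def Dat.S (D : Dat Λ Rg Pa q nt) (v : Hole Λ Pa) : Finset Rg := (D.rc v).S D.ρ v.O

/-- the ideal vector -/
noncomputable def Dat.vec (D : Dat Λ Rg Pa q nt) (Ω : N336.Vec Λ q) (H : Finset (Hole Λ Pa)) :
    N336.Vec Rg q := ap (prodF H D.E) (tens D.ρ Ω D.W)

/-- The invariant. -/
def Inv (nt : ℕ) (Ω : N336.Vec Λ q) (B : ℕ) (ε : ℝ) (Fr : Finset Rg) (o : Rg → Pa) (s : CSt Λ Pa)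
    (δ : ℝ) (x : N336.Vec Rg q) : Prop :=
  ∃ D : Dat Λ Rg Pa q nt, D.OK Ω B ε Fr o s ∧ ‖x - D.vec Ω s.H‖ ≤ δ ∧ 1 - δ ≤ ‖D.vec Ω s.H‖

lemma disjoint_map_rg {ρ : Λ ↪ Rg} {O : Finset Λ} {T : Finset Rg} (h : Disjoint T (rg ρ)) :
    Disjoint T (O.map ρ) := h.mono_right (map_subset_rg ρ O)

namespace Dat.OK

variable {D : Dat Λ Rg Pa q nt} {Ω : N336.Vec Λ q} {B : ℕ} {ε : ℝ} {Fr : Finset Rg} {o : Rg → Pa}
  {s : CSt Λ Pa}

lemma sp (h : D.OK Ω B ε Fr o s) {v : Hole Λ Pa} (hv : v ∈ s.H) : Sp (D.S v) (D.E v) :=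
  sp_E (h.ok v hv) _

lemma norm_le (h : D.OK Ω B ε Fr o s) {v : Hole Λ Pa} (hv : v ∈ s.H) : ‖D.E v‖ ≤ 1 :=
  norm_E (h.ok v hv) (h.dT v hv)

lemma disj (h : D.OK Ω B ε Fr o s) {v w : Hole Λ Pa} (hv : v ∈ s.H) (hw : w ∈ s.H) (hne : v ≠ w) :
    Disjoint (D.S v) (D.S w) := by
  obtain ⟨h1, h2⟩ := h.pw v hv w hw hne
  simp only [Dat.S, Rec.S, Finset.disjoint_union_left, Finset.disjoint_union_right]
  exact ⟨⟨h2, (disjoint_map_rg (h.dT w hw)).symm⟩, disjoint_map_rg (h.dT v hv),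
    (Finset.disjoint_map _).2 h1⟩

lemma comm (h : D.OK Ω B ε Fr o s) {v w : Hole Λ Pa} (hv : v ∈ s.H) (hw : w ∈ s.H) (hne : v ≠ w) :
    Commute (D.E v) (D.E w) := (h.sp hv).commute (h.sp hw) (h.disj hv hw hne)

lemma disj_map (h : D.OK Ω B ε Fr o s) {v : Hole Λ Pa} (hv : v ∈ s.H) {Y : Finset Λ}
    (hY : Disjoint v.O Y) : Disjoint (D.S v) (Y.map D.ρ) := by
  simp only [Dat.S, Rec.S, Finset.disjoint_union_left]
  exact ⟨disjoint_map_rg (h.dT v hv), (Finset.disjoint_map _).2 hY⟩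

lemma norm_prod (h : D.OK Ω B ε Fr o s) {T : Finset (Hole Λ Pa)} (hT : T ⊆ s.H) :
    ‖prodF T D.E‖ ≤ 1 := norm_prodF_le fun _ hv => h.norm_le (hT hv)

lemma close (h : D.OK Ω B ε Fr o s) (hΩ : ‖Ω‖ = 1) {T : Finset (Hole Λ Pa)} (hT : T ⊆ s.H) :
    ‖ap ((prodF T D.E)ᴴ * prodF T D.E) (tens D.ρ Ω D.W) - tens D.ρ Ω D.W‖ ≤ T.card * ε :=
  close_prodF (fun _ hv => h.norm_le (hT hv))
    (fun _ hv _ hw hne => ((h.sp (hT hv)).conjTranspose.mul (h.sp (hT hv))).commute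
      (h.sp (hT hw)) (h.disj (hT hv) (hT hw) hne))
    fun v hv => close_E (h.ok v (hT hv)) (h.dT v (hT hv)) hΩ h.ind (h.zT v (hT hv)) h.nrm

lemma split (h : D.OK Ω B ε Fr o s) {T T' : Finset (Hole Λ Pa)} (hd : Disjoint T T')
    (hT : T ∪ T' ⊆ s.H) : prodF (T ∪ T') D.E = prodF T D.E * prodF T' D.E :=
  prodF_union hd fun _ hv _ hw hne => h.comm (hT hv) (hT hw) hne

lemma sp_prod (h : D.OK Ω B ε Fr o s) {T : Finset (Hole Λ Pa)} (hT : T ⊆ s.H) :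
    Sp (T.biUnion D.S) (prodF T D.E) :=
  sp_prodF fun _ hv => (h.sp (hT hv)).mono (Finset.subset_biUnion_of_mem D.S hv)

lemma disj_prod (h : D.OK Ω B ε Fr o s) {T T' : Finset (Hole Λ Pa)} (hd : Disjoint T T')
    (hT : T ⊆ s.H) (hT' : T' ⊆ s.H) : Disjoint (T.biUnion D.S) (T'.biUnion D.S) := by
  rw [Finset.disjoint_biUnion_left]
  intro v hv
  rw [Finset.disjoint_biUnion_right]
  intro w hw
  exact h.disj (hT hv) (hT' hw) fun e => Finset.disjoint_left.1 hd hv (e ▸ hw)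

lemma norm_vec (h : D.OK Ω B ε Fr o s) : ‖D.vec Ω s.H‖ ≤ 1 :=
  (ap_le_of_le_one (h.norm_prod subset_rfl) _).trans h.nrm

end Dat.OK

/-- analytic part of the paint and final moves -/
theorem paint_an {D : Dat Λ Rg Pa q nt} {Ω : N336.Vec Λ q} {B : ℕ} {ε : ℝ} {Fr Fr' : Finset Rg}
    {o o' : Rg → Pa} {s s' : CSt Λ Pa} (hΩ : ‖Ω‖ = 1) (h : D.OK Ω B ε Fr o s)
    {rc' : Hole Λ Pa → Rec Λ Rg q nt} (h' : (⟨D.ρ, D.W, rc'⟩ : Dat Λ Rg Pa q nt).OK Ω B ε Fr' o' s')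
    {old new : Finset (Hole Λ Pa)} (ho : old ⊆ s.H) (hH : s'.H = (s.H \ old) ∪ new)
    (hd : Disjoint (s.H \ old) new) (hrc : ∀ v ∈ s.H \ old, rc' v = D.rc v)
    {C : N336.Op Λ q} {c : ℝ} {Y : Finset Λ} (hC : ‖C‖ ≤ 1) (hY : Sp Y C)
    (hYd : ∀ v ∈ s.H \ old, Disjoint v.O Y) (hc : ‖ap C Ω - Ω‖ ≤ c) :
    ‖ap (prodF new (Dat.E ⟨D.ρ, D.W, rc'⟩) * em D.ρ C * (prodF old D.E)ᴴ) (D.vec Ω s.H) -
        Dat.vec ⟨D.ρ, D.W, rc'⟩ Ω s'.H‖ ≤ old.card * ε + c ∧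
      ‖D.vec Ω s.H‖ ≤ ‖Dat.vec ⟨D.ρ, D.W, rc'⟩ Ω s'.H‖ + new.card * ε := by
  set D' : Dat Λ Rg Pa q nt := ⟨D.ρ, D.W, rc'⟩ with hD'
  set S := prodF (s.H \ old) D.E with hS
  set P := prodF old D.E with hP
  set N := prodF new D'.E with hN
  set y := tens D.ρ Ω D.W with hy
  have hst : s.H \ old ⊆ s.H := Finset.sdiff_subset
  have hst' : s.H \ old ⊆ s'.H := hH ▸ Finset.subset_union_left
  have hnw : new ⊆ s'.H := hH ▸ Finset.subset_union_right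
  have hS' : prodF (s.H \ old) D'.E = S := prodF_congr fun v hv => by
    simp only [Dat.E, hD', hrc v hv]
  have hv : D.vec Ω s.H = ap (S * P) y := by
    rw [Dat.vec, hS, hP, ← h.split Finset.sdiff_disjoint (by rw [Finset.sdiff_union_of_subset ho]),
      Finset.sdiff_union_of_subset ho]
  have hv' : D'.vec Ω s'.H = ap (S * N) y := by
    rw [Dat.vec, ← hS', hN, ← h'.split hd (by rw [hH]), ← hH]
  have nS : ‖S‖ ≤ 1 := h.norm_prod hst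
  have nP : ‖P‖ ≤ 1 := h.norm_prod ho
  have nN : ‖N‖ ≤ 1 := h'.norm_prod hnw
  have nC : ‖em D.ρ C‖ ≤ 1 := (norm_em_le _ _).trans hC
  have cP : Commute S P :=
    (h.sp_prod hst).commute (h.sp_prod ho) (h.disj_prod Finset.sdiff_disjoint hst ho)
  have cP' : Commute S Pᴴ :=
    (h.sp_prod hst).commute (h.sp_prod ho).conjTranspose (h.disj_prod Finset.sdiff_disjoint hst ho)
  have cN : Commute S N := by
    rw [← hS']; exact (h'.sp_prod hst').commute (h'.sp_prod hnw) (h'.disj_prod hd hst' hnw)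
  have cN' : Commute S Nᴴ := by
    rw [← hS']
    exact (h'.sp_prod hst').commute (h'.sp_prod hnw).conjTranspose (h'.disj_prod hd hst' hnw)
  have cC : Commute S (em D.ρ C) := (h.sp_prod hst).commute (hY.em D.ρ) (by
    rw [Finset.disjoint_biUnion_left]
    exact fun v hv => h.disj_map (hst hv) (hYd v hv))
  have k1 := h.close hΩ ho
  have k2 := h'.close hΩ hnw
  have k3 := close_tens D.ρ hΩ h.ind h.nrm hc
  rw [hv, hv']
  constructor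
  · have e1 : N * em D.ρ C * Pᴴ * (S * P) = S * N * (em D.ρ C * (Pᴴ * P)) := by
      have : Commute S (N * em D.ρ C * Pᴴ) := (cN.mul_right cC).mul_right cP'
      rw [← Matrix.mul_assoc, ← this.eq]
      simp only [Matrix.mul_assoc]
    have e2 : ap (N * em D.ρ C * Pᴴ) (ap (S * P) y) - ap (S * N) y =
        ap (S * N) (ap (em D.ρ C) (ap (Pᴴ * P) y - y) + (ap (em D.ρ C) y - y)) := by
      rw [← ap_mul, e1, ap_mul (S * N), ap_mul (em D.ρ C), ← map_sub, map_sub (ap (em D.ρ C))]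
      congr 1; abel
    rw [e2]
    refine (ap_le_of_le_one (mul_le_one' nS nN) _).trans ((norm_add_le _ _).trans ?_)
    exact add_le_add ((ap_le_of_le_one nC _).trans k1) k3
  · have e1 : ‖ap (S * P) y‖ ≤ ‖ap S y‖ := by
      rw [cP.eq, ap_mul]; exact ap_le_of_le_one nP _
    have e2 : ap S y = ap Nᴴ (ap (S * N) y) - ap S (ap (Nᴴ * N) y - y) := by
      rw [← ap_mul, ← Matrix.mul_assoc, ← cN'.eq, Matrix.mul_assoc, ap_mul S, map_sub]; abel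
    have e3 : ‖ap Nᴴ (ap (S * N) y)‖ ≤ ‖ap (S * N) y‖ := ap_le_of_le_one (by rwa [norm_ct]) _
    have e4 := (ap_le_of_le_one nS (ap (Nᴴ * N) y - y)).trans k2
    have e5 := norm_sub_le (ap Nᴴ (ap (S * N) y)) (ap S (ap (Nᴴ * N) y - y))
    rw [← e2] at e5
    linarith

/-- the invariant after a gate -/
lemma inv_of {D D' : Dat Λ Rg Pa q nt} {Ω : N336.Vec Λ q} {B : ℕ} {ε δ η : ℝ} {Fr' : Finset Rg}
    {o' : Rg → Pa} {s' : CSt Λ Pa} {H : Finset (Hole Λ Pa)} {x : N336.Vec Rg q}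
    {M : N336.Op Rg q} (hM : ‖M‖ ≤ 1) (h' : D'.OK Ω B ε Fr' o' s') (h1 : ‖x - D.vec Ω H‖ ≤ δ)
    (h2 : 1 - δ ≤ ‖D.vec Ω H‖) (h3 : ‖ap M (D.vec Ω H) - D'.vec Ω s'.H‖ ≤ η)
    (h4 : ‖D.vec Ω H‖ ≤ ‖D'.vec Ω s'.H‖ + η) : Inv nt Ω B ε Fr' o' s' (δ + η) (ap M x) := by
  refine ⟨D', h', ?_, by linarith⟩
  have e : ap M x - D'.vec Ω s'.H = ap M (x - D.vec Ω H) + (ap M (D.vec Ω H) - D'.vec Ω s'.H) := by
    rw [map_sub]; abel
  rw [e]
  exact (norm_add_le _ _).trans (add_le_add ((ap_le_of_le_one hM _).trans h1) h3)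

end Crest.Agent.N336.P.Snd
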