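import Crest.Agent.N336.P.Sound.Inv

/-!
# Row 336, soundness of plans: layers, the final move, owners for the paint move (helper29)
-/

set_option autoImplicit false
set_option linter.unusedSectionVars false

open Matrix Finset
open scoped Matrix.Norms.L2Operator

namespace Crest.Agent.N336.P.Snd

open Crest.MathPhysics.LatticeSpin Crest.Agent.N336.Q

variable {Λ Rg Pa : Type} [Fintype Λ] [DecidableEq Λ] [Fintype Rg] [DecidableEq Rg]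
  [DecidableEq Pa] {q nt : ℕ} [NeZero q]

lemma rg_sb_trans (A : Finset Λ) (ρ : Λ ↪ Rg) : rg ((sb A).trans ρ) = A.map ρ := by
  rw [rg_trans, rg_sb]

lemma em_rk1 (A : Finset Λ) (ρ : Λ ↪ Rg) (a a' : (A → Fin q) → ℂ) :
    em ((sb A).trans ρ) (kt a a') = em ρ (rk1 A a a') := by rw [rk1_eq, em_em]

lemma bv_le {κ : Type} [Fintype κ] [DecidableEq κ] (b : κ → Fin q) :
    ∑ σ, ‖bv b 1 σ‖ ^ 2 ≤ 1 := by simp [sum_bv]

lemma adm_bv {κ : Type} [Fintype κ] [DecidableEq κ] (P : Pa → Prop) (b : κ → Fin q) (c : ℂ) :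
    Adm P (bv b c) := Or.inr ⟨b, c, rfl⟩

lemma adm_mem {κ : Type} [Fintype κ] [DecidableEq κ] (P : Pa × Pa) (a : (κ → Fin q) → ℂ) :
    Adm (fun p => Mem p P) a := Or.inl ⟨P, fun _ h => h⟩

section layers

variable {Ω : N336.Vec Λ q} {B : ℕ} {ε : ℝ} {I O : Finset Λ}

/-- decoding layer -/
lemma exists_dec {R : Rec Λ Rg q nt} (h : R.toFm.OK Ω B ε I O) (ρ : Λ ↪ Rg) (P : Pa × Pa) :
    ∃ L : List (List (PS Rg Pa q)), L.length = R.nb ∧ opF L = (R.E ρ)ᴴ ∧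
      ∀ b ∈ L, ∃ A s1 s2, I ⊆ A ∧ A ⊆ O ∧ b = [s1, s2] ∧ s1.A = rg R.tag ∧ (∀ p, s1.In p) ∧
        (∀ p, s1.Out p) ∧ s2.A = A.map ρ ∧ (∀ p, s2.In p) ∧ ∀ p, Mem p P → s2.Out p := by
  refine ⟨List.ofFn fun α => [PS.rk R.tag (bv 0 1) (bv (R.code α) 1) (fun _ => True)
    (fun _ => True) (bv_le _) (bv_le _) (adm_bv _ _ _) (adm_bv _ _ _),
    PS.rk ((sb (R.A α)).trans ρ) (R.a α) (bv 0 1) (fun _ => True) (fun p => Mem p P) (h.nrm α).le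
      (bv_le _) (adm_bv _ _ _) (adm_mem _ _)], by simp, ?_, fun b hb => ?_⟩
  · rw [opF_ofFn, E_ct]
    refine Finset.sum_congr rfl fun α _ => ?_
    rw [opP, opP, opP, Matrix.one_mul, PS.rk_op, PS.rk_op, em_rk1]
  · obtain ⟨α, rfl⟩ := List.mem_ofFn.1 hb
    exact ⟨R.A α, _, _, (h.sub α).1, (h.sub α).2, rfl, rfl, fun _ => trivial, fun _ => trivial,
      rg_sb_trans _ _, fun _ => trivial, fun _ h => h⟩

/-- encoding layer -/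
lemma exists_enc {R : Rec Λ Rg q nt} (h : R.toFm.OK Ω B ε I O) (ρ : Λ ↪ Rg) (P : Pa × Pa) :
    ∃ L : List (List (PS Rg Pa q)), L.length = R.nb ∧ opF L = R.E ρ ∧
      ∀ b ∈ L, ∃ A s1 s2, I ⊆ A ∧ A ⊆ O ∧ b = [s2, s1] ∧ s1.A = rg R.tag ∧ (∀ p, s1.In p) ∧
        (∀ p, s1.Out p) ∧ s2.A = A.map ρ ∧ (∀ p, s2.Out p) ∧ ∀ p, Mem p P → s2.In p := by
  refine ⟨List.ofFn fun α => [PS.rk ((sb (R.A α)).trans ρ) (bv 0 1) (R.a α) (fun p => Mem p P)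
    (fun _ => True) (bv_le _) (h.nrm α).le (adm_mem _ _) (adm_bv _ _ _),
    PS.rk R.tag (bv (R.code α) 1) (bv 0 1) (fun _ => True)
      (fun _ => True) (bv_le _) (bv_le _) (adm_bv _ _ _) (adm_bv _ _ _)], by simp, ?_,
    fun b hb => ?_⟩
  · rw [opF_ofFn, Rec.E]
    refine Finset.sum_congr rfl fun α _ => ?_
    rw [opP, opP, opP, Matrix.one_mul, PS.rk_op, PS.rk_op, em_rk1]
  · obtain ⟨α, rfl⟩ := List.mem_ofFn.1 hb
    exact ⟨R.A α, _, _, (h.sub α).1, (h.sub α).2, rfl, rfl, fun _ => trivial, fun _ => trivial,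
      rg_sb_trans _ _, fun _ => trivial, fun _ h => h⟩

/-- patch layer -/
lemma exists_cel {R : Fm Λ q} (h : R.OK Ω B ε I O) (ρ : Λ ↪ Rg) (P P' : Pa × Pa) :
    ∃ L : List (List (PS Rg Pa q)), L.length = R.nb ∧ opF L = em ρ R.G ∧
      ∀ b ∈ L, ∃ A s, I ⊆ A ∧ A ⊆ O ∧ b = [s] ∧ s.A = A.map ρ ∧ (∀ p, Mem p P → s.In p) ∧
        ∀ p, Mem p P' → s.Out p := by
  refine ⟨List.ofFn fun α => [PS.rk ((sb (R.A α)).trans ρ) (R.a α) (R.a α) (fun p => Mem p P)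
    (fun p => Mem p P') (h.nrm α).le (h.nrm α).le (adm_mem _ _) (adm_mem _ _)], by simp, ?_,
    fun b hb => ?_⟩
  · rw [opF_ofFn, Fm.G, map_sum]
    refine Finset.sum_congr rfl fun α _ => ?_
    rw [opP, opP, Matrix.one_mul, PS.rk_op, em_rk1]
  · obtain ⟨α, rfl⟩ := List.mem_ofFn.1 hb
    exact ⟨R.A α, _, (h.sub α).1, (h.sub α).2, rfl, rg_sb_trans _ _, fun _ h => h, fun _ h => h⟩

end layers

/-- steps without constraints -/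
lemma feas_free {I : Finset Pa} {o : Rg → Pa} {l : List (PS Rg Pa q)}
    (h : ∀ s ∈ l, (∀ p, s.In p) ∧ (∀ p, s.Out p) ∧ ∀ r ∈ s.A, o r ∈ I) : Feas I o o l := by
  have key : Good I o l ∧ ∀ r, req I o r (o r) l := by
    induction l with
    | nil => exact ⟨trivial, fun _ => rfl⟩
    | cons s l ih =>
      obtain ⟨h1, h2⟩ := ih fun s' hs' => h s' (by simp [hs'])
      obtain ⟨h3, h4, h5⟩ := h s (by simp)
      refine ⟨⟨fun r hr => ⟨o r, h4 _, h5 r hr, h2 r⟩, h1⟩, fun r => ?_⟩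
      rw [req]
      split_ifs with hr
      exacts [⟨h3 _, h5 r hr⟩, h2 r]
  exact own key.1 key.2

lemma kt_sum_bv {κ : Type} [Fintype κ] [DecidableEq κ] (a a' : (κ → Fin q) → ℂ) :
    ∑ σ, kt (bv σ (a σ)) a' = kt a a' := by
  ext τ υ
  simp only [Matrix.sum_apply, kt_apply, ← Finset.sum_mul]
  congr 1
  rw [Finset.sum_eq_single τ]
  · simp [bv]
  · intro σ _ h; simp [bv, Pi.single_eq_of_ne h.symm]
  · simp

theorem fin_step {Ω : N336.Vec Λ q} {B d : ℕ} {ε δ : ℝ} {Fr Fr' : Finset Rg} {I : Finset Pa}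
    {o : Rg → Pa} {s s' : CSt Λ Pa} {x : N336.Vec Rg q} (hΩ : ‖Ω‖ = 1) (hε0 : 0 ≤ ε) (hε : ε < 1)
    (hF : Fr' ⊆ Fr) (hm : FinMove d I s s') (hx : Inv nt Ω B ε Fr o s δ x) :
    ∃ g : Gate Rg Pa q, g.I = I ∧ g.Valid (B * q ^ d) 2 o o ∧
      Inv nt Ω B ε Fr' o s' (δ + ε) (act g.op x) := by
  obtain ⟨v, hv, hd, htg, hcI, hcol, hH⟩ := hm
  obtain ⟨D, h, hx1, hx2⟩ := hx
  have hR := h.ok v hv
  set R := D.rc v with hRd
  have na : ∀ α σ, ∑ τ, ‖bv σ (R.a α σ) τ‖ ^ 2 ≤ 1 := fun α σ => by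
    rw [sum_bv, ← hR.nrm α]
    exact Finset.single_le_sum (f := fun σ => ‖R.a α σ‖ ^ 2) (fun _ _ => by positivity)
      (Finset.mem_univ σ)
  let br : (Σ α : Fin R.nb, (R.A α → Fin q)) → List (PS Rg Pa q) := fun y =>
    [PS.rk R.tag (bv 0 1) (bv (R.code y.1) 1) (fun _ => True) (fun _ => True) (bv_le _) (bv_le _)
      (adm_bv _ _ _) (adm_bv _ _ _),
    PS.rk ((sb (R.A y.1)).trans D.ρ) (bv y.2 (R.a y.1 y.2)) (bv 0 1) (fun _ => True)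
      (fun _ => True) (na _ _) (bv_le _) (adm_bv _ _ _) (adm_bv _ _ _)]
  have hop : opF (Finset.univ.toList.map br) = (D.E v)ᴴ := by
    rw [opF_toList, Dat.E, E_ct, Fintype.sum_sigma]
    refine Finset.sum_congr rfl fun α _ => ?_
    rw [← em_rk1, ← kt_sum_bv (R.a α), map_sum, Finset.sum_mul]
    refine Finset.sum_congr rfl fun σ _ => ?_
    simp only [br]
    rw [opP, opP, opP, Matrix.one_mul, PS.rk_op, PS.rk_op]
  have hq : 1 ≤ q := Nat.pos_of_ne_zero (NeZero.ne q)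
  have hlen : (Finset.univ.toList.map br).length = ∑ α, q ^ (R.A α).card := by simp
  have nM : ‖(D.E v)ᴴ‖ ≤ 1 := by rw [norm_ct]; exact h.norm_le hv
  obtain ⟨g, hg1, hg2, hg3⟩ := exists_gate (I := I) (o := o) (o' := o) (B := B * q ^ d) (ℓ := 2)
    (Finset.univ.toList.map br)
    (by
      rw [hlen]
      have α : Fin R.nb := ⟨0, hR.nb_pos hΩ hε⟩
      exact (Nat.one_le_pow _ _ hq).trans (Finset.single_le_sum
        (f := fun α => q ^ (R.A α).card) (fun _ _ => Nat.zero_le _) (Finset.mem_univ α)))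
    (by
      rw [hlen]
      refine (Finset.sum_le_card_nsmul _ _ (q ^ d) fun α _ => Nat.pow_le_pow_right hq
        ((Finset.card_le_card (hR.sub α).2).trans hd)).trans ?_
      simpa using Nat.mul_le_mul_right _ hR.nb_le)
    (by
      intro b hb
      obtain ⟨y, -, rfl⟩ := List.mem_map.1 hb
      refine ⟨le_rfl, feas_free fun st hst => ?_⟩
      rcases List.mem_pair.1 hst with rfl | rfl
      · refine ⟨fun _ => trivial, fun _ => trivial, fun r hr => ?_⟩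
        obtain ⟨j, rfl⟩ := mem_rg.1 hr
        rw [h.tg v hv]; exact htg
      · refine ⟨fun _ => trivial, fun _ => trivial, fun r hr => ?_⟩
        obtain ⟨z, rfl⟩ := mem_rg.1 hr
        change o (D.ρ z) ∈ I
        rw [h.col]; exact hcI _ ((hR.sub _).2 z.2))
    (by rw [hop]; exact nM)
  refine ⟨g, hg1, hg2, ?_⟩
  have hs' : s'.H ⊆ s.H := hH ▸ Finset.erase_subset _ _
  have h' : D.OK Ω B ε Fr' o s' :=
    { ind := h.ind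
      zF := h.zF.mono hF
      zT := fun w hw => h.zT w (hs' hw)
      nrm := h.nrm
      dF := h.dF.mono_right hF
      col := fun z => by rw [h.col, hcol]
      ok := fun w hw => h.ok w (hs' hw)
      tg := fun w hw => h.tg w (hs' hw)
      dT := fun w hw => h.dT w (hs' hw)
      dTF := fun w hw => (h.dTF w (hs' hw)).mono_right hF
      pw := fun w hw w' hw' => h.pw w (hs' hw) w' (hs' hw') }
  obtain ⟨k1, k2⟩ := paint_an (rc' := D.rc) (old := {v}) (new := ∅) (C := 1) (c := 0) (Y := ∅) hΩ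
    h h' (Finset.singleton_subset_iff.2 hv) (by rw [hH, Finset.union_empty, Finset.erase_eq])
    (Finset.disjoint_empty_right _) (fun _ _ => rfl) norm_one_le (Supp.one _)
    (fun _ _ => Finset.disjoint_empty_right _) (by simp)
  simp only [prodF_empty, prodF_singleton, map_one, Finset.card_singleton,
    Nat.cast_one, one_mul, add_zero, Finset.card_empty, Nat.cast_zero, zero_mul] at k1 k2
  rw [hg3, hop]
  exact inv_of nM h' hx1 hx2 k1 (by linarith)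

lemma mm {I : Finset Pa} {p : Pa} {P : Pa × Pa} (h : Mem p P) (h1 : P.1 ∈ I) (h2 : P.2 ∈ I) :
    p ∈ I := by rcases h with rfl | rfl <;> assumption

/-- owners for a branch of the paint move -/
theorem paint_own {I : Finset Pa} {o o' : Rg → Pa} {col col' : Λ → Pa} {ρ : Λ ↪ Rg}
    {old new : Finset (Hole Λ Pa)} {pr pr' : Hole Λ Pa → Pa × Pa} {cells : List (Patch Λ Pa)}
    {T T' : Hole Λ Pa → Finset Rg} {bD bC bN : List (PS Rg Pa q)}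
    (ho : ∀ z, o (ρ z) = col z) (ho' : ∀ z, o' (ρ z) = col' z)
    (hoo : ∀ r, r ∉ rg ρ → (∀ w ∈ new, r ∉ T' w) → o' r = o r)
    (hT : ∀ v ∈ old, Disjoint (T v) (rg ρ) ∧ (∀ w ∈ new, Disjoint (T v) (T' w)) ∧
      ∀ r ∈ T v, o r ∈ I)
    (hT' : ∀ w ∈ new, Disjoint (T' w) (rg ρ) ∧ ∀ r ∈ T' w, o r ∈ I ∧ o' r ∈ I)
    (p1 : ∀ κ ∈ cells, κ.pin.1 ∈ I ∧ κ.pin.2 ∈ I ∧ κ.pout.1 ∈ I ∧ κ.pout.2 ∈ I)
    (p2 : ∀ w ∈ new, (pr' w).1 ∈ I ∧ (pr' w).2 ∈ I ∧ ∀ z ∈ w.O, col' z ∈ I)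
    (p3 : ∀ v ∈ old, ∀ z ∈ v.O, col z ∈ I)
    (p4 : ∀ κ ∈ cells, ∀ z ∈ κ.O, (∀ v ∈ old, z ∉ v.I) → Mem (col z) κ.pin)
    (p5 : ∀ w ∈ new, ∀ z ∈ w.O, (∀ κ ∈ cells, z ∉ κ.I) → Mem (col z) (pr' w))
    (p6 : ∀ z, (∀ κ ∈ cells, z ∉ κ.I) → (∀ w ∈ new, z ∉ w.I) → col' z = col z)
    (p7 : ∀ v ∈ old, (∀ z ∈ v.O, ∃ κ ∈ cells, z ∈ κ.I) ∧
      ∀ κ ∈ cells, ¬ Disjoint v.O κ.O → Meet (pr v) κ.pin)
    (p8 : ∀ κ ∈ cells, ∀ w ∈ new, ¬ Disjoint κ.O w.O → Meet κ.pout (pr' w))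
    (p9 : ∀ κ ∈ cells, ∀ z ∈ κ.O, (∀ w ∈ new, z ∉ w.I) → Mem (col' z) κ.pout)
    (d1 : ∀ s ∈ bD, (∀ p, s.In p) ∧ ∃ v ∈ old, (s.A = T v ∧ ∀ p, s.Out p) ∨
      (s.A ⊆ v.O.map ρ ∧ ∀ p, Mem p (pr v) → s.Out p))
    (d2 : bD.Pairwise fun s s' => Disjoint s.A s'.A)
    (d3 : ∀ v ∈ old, ∃ s ∈ bD, v.I.map ρ ⊆ s.A)
    (c1 : ∀ s ∈ bC, ∃ κ ∈ cells, s.A ⊆ κ.O.map ρ ∧ (∀ p, Mem p κ.pin → s.In p) ∧
      ∀ p, Mem p κ.pout → s.Out p)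
    (c2 : bC.Pairwise fun s s' => ∀ r ∈ s.A, r ∈ s'.A → ∃ p, (s.Out p ∧ p ∈ I) ∧ s'.In p ∧ p ∈ I)
    (c3 : ∀ κ ∈ cells, ∃ s ∈ bC, κ.I.map ρ ⊆ s.A)
    (n1 : ∀ s ∈ bN, (∀ p, s.Out p) ∧ ∃ w ∈ new, (s.A = T' w ∧ ∀ p, s.In p) ∨
      (s.A ⊆ w.O.map ρ ∧ ∀ p, Mem p (pr' w) → s.In p))
    (n2 : bN.Pairwise fun s s' => Disjoint s.A s'.A)
    (n3 : ∀ w ∈ new, (∃ s ∈ bN, w.I.map ρ ⊆ s.A) ∧ ∃ s ∈ bN, T' w ⊆ s.A) :
    Feas I o o' (bD ++ (bC ++ bN)) := by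
  have vac : ∀ {l : List (PS Rg Pa q)}, (l.Pairwise fun s s' => Disjoint s.A s'.A) →
      l.Pairwise fun s s' => ∀ r ∈ s.A, r ∈ s'.A → ∃ p, (s.Out p ∧ p ∈ I) ∧ s'.In p ∧ p ∈ I :=
    fun h => h.imp fun h r h1 h2 => absurd h2 (Finset.disjoint_left.1 h h1)
  have nd : ∀ {z : Λ} {X Y : Finset Λ}, z ∈ X → z ∈ Y → ¬ Disjoint X Y := fun h1 h2 h =>
    Finset.disjoint_left.1 h h1 h2
  have eD : ∀ {z}, (∀ s ∈ bD, ρ z ∉ s.A) → ∀ v ∈ old, z ∉ v.I := fun h v hv hz => by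
    obtain ⟨s, hs, h1⟩ := d3 v hv
    exact h s hs (h1 (Finset.mem_map_of_mem ρ hz))
  have eC : ∀ {z}, (∀ s ∈ bC, ρ z ∉ s.A) → ∀ κ ∈ cells, z ∉ κ.I := fun h v hv hz => by
    obtain ⟨s, hs, h1⟩ := c3 v hv
    exact h s hs (h1 (Finset.mem_map_of_mem ρ hz))
  have eN : ∀ {z}, (∀ s ∈ bN, ρ z ∉ s.A) → ∀ w ∈ new, z ∉ w.I := fun h v hv hz => by
    obtain ⟨s, hs, h1⟩ := (n3 v hv).1
    exact h s hs (h1 (Finset.mem_map_of_mem ρ hz))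
  have gN : Good I o' bN := by
    rw [← List.append_nil bN]
    refine good_append (vac n2) (fun s hs r hr => ⟨o' r, ⟨(n1 s hs).1 _, ?_⟩, rfl⟩) trivial
    obtain ⟨w, hw, ⟨h1, -⟩ | ⟨h1, -⟩⟩ := (n1 s hs).2
    · exact ((hT' w hw).2 r (h1 ▸ hr)).2
    · obtain ⟨z, hz, rfl⟩ := Finset.mem_map.1 (h1 hr)
      rw [ho']; exact (p2 w hw).2.2 z hz
  have gC : Good I o' (bC ++ bN) := by
    refine good_append c2 (fun s hs r hr => ?_) gN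
    obtain ⟨κ, hκ, h1, -, h2⟩ := c1 s hs
    obtain ⟨z, hz, rfl⟩ := Finset.mem_map.1 (h1 hr)
    obtain ⟨-, -, i1, i2⟩ := p1 κ hκ
    refine req_of' (fun p => s.Out p ∧ p ∈ I) bN (fun s' hs' hr' => ?_) fun h => ?_
    · obtain ⟨w, hw, ⟨h3, -⟩ | ⟨h3, h4⟩⟩ := (n1 s' hs').2
      · exact absurd (apply_mem_rg ρ z) (Finset.disjoint_left.1 (hT' w hw).1 (h3 ▸ hr'))
      · obtain ⟨p, m1, m2⟩ := p8 κ hκ w hw (nd hz ((Finset.mem_map' ρ).1 (h3 hr')))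
        exact ⟨p, ⟨h2 p m1, mm m1 i1 i2⟩, h4 p m2, mm m1 i1 i2⟩
    · have m := p9 κ hκ z hz (eN h)
      rw [ho']
      exact ⟨h2 _ m, mm m i1 i2⟩
  have gD : Good I o' (bD ++ (bC ++ bN)) := by
    refine good_append (vac d2) (fun s hs r hr => ?_) gC
    obtain ⟨v, hv, ⟨h1, h2⟩ | ⟨h1, h2⟩⟩ := (d1 s hs).2
    · obtain ⟨t1, t2, t3⟩ := hT v hv
      have r1 : r ∉ rg ρ := Finset.disjoint_left.1 t1 (h1 ▸ hr)
      have r2 : ∀ w ∈ new, r ∉ T' w := fun w hw => Finset.disjoint_left.1 (t2 w hw) (h1 ▸ hr)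
      refine req_of' (fun p => s.Out p ∧ p ∈ I) _ (fun s' hs' hr' => False.elim ?_) fun _ =>
        ⟨h2 _, by rw [hoo r r1 r2]; exact t3 r (h1 ▸ hr)⟩
      rcases List.mem_append.1 hs' with hs' | hs'
      · obtain ⟨κ, -, h3, -⟩ := c1 s' hs'
        exact r1 (map_subset_rg _ _ (h3 hr'))
      · obtain ⟨w, hw, ⟨h3, -⟩ | ⟨h3, -⟩⟩ := (n1 s' hs').2
        · exact r2 w hw (h3 ▸ hr')
        · exact r1 (map_subset_rg _ _ (h3 hr'))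
    · obtain ⟨z, hz, rfl⟩ := Finset.mem_map.1 (h1 hr)
      refine req_of (fun p => s.Out p ∧ p ∈ I) bC bN (fun s' hs' hr' => ?_) fun h => ?_
      · obtain ⟨κ, hκ, h3, h4, -⟩ := c1 s' hs'
        obtain ⟨i1, i2, -⟩ := p1 κ hκ
        obtain ⟨p, m1, m2⟩ := (p7 v hv).2 κ hκ (nd hz ((Finset.mem_map' ρ).1 (h3 hr')))
        exact ⟨p, ⟨h2 p m1, mm m2 i1 i2⟩, h4 p m2, mm m2 i1 i2⟩
      · obtain ⟨κ, hκ, h3⟩ := (p7 v hv).1 z hz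
        exact absurd h3 (eC h κ hκ)
  refine own gD fun r => ?_
  suffices H : ∃ p, p = o r ∧ req I o' r p (bD ++ (bC ++ bN)) by
    obtain ⟨p, rfl, h⟩ := H; exact h
  refine req_of (fun p => p = o r) bD _ (fun s hs hr => ⟨_, rfl, (d1 s hs).1 _, ?_⟩) fun hD =>
    req_of (fun p => p = o r) bC _ (fun s hs hr => ⟨_, rfl, ?_⟩) fun hC =>
      req_of' (fun p => p = o r) bN (fun s hs hr => ⟨_, rfl, ?_⟩) fun hN => ?_
  · obtain ⟨v, hv, ⟨h1, -⟩ | ⟨h1, -⟩⟩ := (d1 s hs).2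
    · exact (hT v hv).2.2 r (h1 ▸ hr)
    · obtain ⟨z, hz, rfl⟩ := Finset.mem_map.1 (h1 hr)
      rw [ho]; exact p3 v hv z hz
  · obtain ⟨κ, hκ, h1, h2, -⟩ := c1 s hs
    obtain ⟨z, hz, rfl⟩ := Finset.mem_map.1 (h1 hr)
    obtain ⟨i1, i2, -⟩ := p1 κ hκ
    have m := p4 κ hκ z hz (eD hD)
    rw [ho]
    exact ⟨h2 _ m, mm m i1 i2⟩
  · obtain ⟨w, hw, ⟨h1, h2⟩ | ⟨h1, h2⟩⟩ := (n1 s hs).2
    · exact ⟨h2 _, ((hT' w hw).2 r (h1 ▸ hr)).1⟩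
    · obtain ⟨z, hz, rfl⟩ := Finset.mem_map.1 (h1 hr)
      have m := p5 w hw z hz (eC hC)
      rw [ho]
      exact ⟨h2 _ m, mm m (p2 w hw).1 (p2 w hw).2.1⟩
  · by_cases hr : r ∈ rg ρ
    · obtain ⟨z, rfl⟩ := mem_rg.1 hr
      rw [ho, ho', p6 z (eC hC) (eN hN)]
    · refine hoo r hr fun w hw h1 => ?_
      obtain ⟨s, hs, h2⟩ := (n3 w hw).2
      exact hN s hs (h2 h1)

end Crest.Agent.N336.P.Snd
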