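import Crest.Agent.N336.P.Sound.Tens

/-!
# Row 336, soundness of plans: choice of the intermediate owners, families of branches (helper29)
-/

set_option autoImplicit false
set_option linter.unusedSectionVars false

open Matrix Finset
open scoped Matrix.Norms.L2Operator

namespace Crest.Agent.N336.P.Snd

open Crest.MathPhysics.LatticeSpin Crest.Agent.N336.Q

variable {Rg Pa κ : Type} [Fintype Rg] [DecidableEq Rg] [DecidableEq Pa] [Fintype κ]
  [DecidableEq κ] {q : ℕ}

/-- A step without output owners: allowed owners before (`In`) and after (`Out`). -/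
structure PS (Rg Pa : Type) [Fintype Rg] [DecidableEq Rg] [DecidableEq Pa] (q : ℕ) where
  A : Finset Rg
  M : Matrix (↥A → Fin q) (↥A → Fin q) ℂ
  In : Pa → Prop
  Out : Pa → Prop
  ok : ∀ o o' : Rg → Pa, (∀ r ∈ A, In (o r)) → (∀ r ∈ A, Out (o' r)) →
    (opN M ≤ 1 ∧ ∃ p, ∀ r ∈ A, o r = p ∧ o' r = p) ∨
      ∃ a a' : (↥A → Fin q) → ℂ, M = Matrix.vecMulVec a (star a') ∧
        ∑ σ, ‖a σ‖ ^ 2 ≤ 1 ∧ ∑ σ, ‖a' σ‖ ^ 2 ≤ 1 ∧ PB o A a' ∧ PB o' A a

/-- operator of a pre-step -/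
noncomputable def PS.op (s : PS Rg Pa q) : N336.Op Rg q := localOp s.A s.M

/-- operator of a list of pre-steps (the head acts first) -/
noncomputable def opP : List (PS Rg Pa q) → N336.Op Rg q
  | [] => 1
  | s :: l => opP l * s.op

lemma opP_append (l l' : List (PS Rg Pa q)) : opP (l ++ l') = opP l' * opP l := by
  induction l with
  | nil => simp [opP]
  | cons s l ih => simp [opP, ih, Matrix.mul_assoc]

/-- `p` is an admissible owner of `r` before the steps `l` leading to `o'`. -/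
def req (I : Finset Pa) (o' : Rg → Pa) (r : Rg) (p : Pa) : List (PS Rg Pa q) → Prop
  | [] => p = o' r
  | s :: l => if r ∈ s.A then s.In p ∧ p ∈ I else req I o' r p l

/-- every step has an admissible output owner -/
def Good (I : Finset Pa) (o' : Rg → Pa) : List (PS Rg Pa q) → Prop
  | [] => True
  | s :: l => (∀ r ∈ s.A, ∃ p, s.Out p ∧ p ∈ I ∧ req I o' r p l) ∧ Good I o' l

/-- `l` can be realised by a valid chain -/
def Feas (I : Finset Pa) (o o' : Rg → Pa) (l : List (PS Rg Pa q)) : Prop :=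
  ∃ l' : List (Step Rg Pa q), Chain I o l' o' ∧ opOf l' = opP l ∧ l'.length = l.length

theorem own {I : Finset Pa} {o' : Rg → Pa} {l : List (PS Rg Pa q)} (hg : Good I o' l)
    {o : Rg → Pa} (hr : ∀ r, req I o' r (o r) l) : Feas I o o' l := by
  induction l generalizing o with
  | nil => exact ⟨[], funext hr, rfl, rfl⟩
  | cons s l ih =>
    obtain ⟨h1, h2⟩ := hg
    choose f hf using h1
    let out : Rg → Pa := fun r => if h : r ∈ s.A then f r h else o r
    have hin : ∀ r ∈ s.A, s.In (o r) ∧ o r ∈ I := fun r h => by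
      have := hr r
      rwa [req, if_pos h] at this
    have hout : ∀ r (h : r ∈ s.A), out r = f r h := fun r h => dif_pos h
    have hr' : ∀ r, req I o' r (out r) l := fun r => by
      by_cases h : r ∈ s.A
      · rw [hout r h]; exact (hf r h).2.2
      · have := hr r
        rw [req, if_neg h] at this
        have h3 : out r = o r := dif_neg h
        rwa [h3]
    obtain ⟨l', h3, h4, h5⟩ := ih h2 hr'
    refine ⟨⟨s.A, s.M, out⟩ :: l', ⟨⟨fun r h => dif_neg h, fun r h => ⟨(hin r h).2, ?_⟩, ?_⟩, h3⟩,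
      ?_, by simp [h5]⟩
    · change out r ∈ I
      rw [hout r h]; exact (hf r h).2.1
    · exact s.ok o out (fun r h => (hin r h).1) fun r h => by rw [hout r h]; exact (hf r h).1
    · rw [opOf, opP, h4]; rfl

lemma req_of {I : Finset Pa} {o' : Rg → Pa} {r : Rg} (Q : Pa → Prop) (l l' : List (PS Rg Pa q))
    (h1 : ∀ s ∈ l, r ∈ s.A → ∃ p, Q p ∧ s.In p ∧ p ∈ I)
    (h2 : (∀ s ∈ l, r ∉ s.A) → ∃ p, Q p ∧ req I o' r p l') :
    ∃ p, Q p ∧ req I o' r p (l ++ l') := by
  induction l with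
  | nil => exact h2 (by simp)
  | cons s l ih =>
    by_cases h : r ∈ s.A
    · obtain ⟨p, hp⟩ := h1 s (by simp) h
      exact ⟨p, hp.1, by rw [List.cons_append, req, if_pos h]; exact hp.2⟩
    · obtain ⟨p, hp⟩ := ih (fun s' hs' => h1 s' (by simp [hs'])) fun h3 => h2 (by
        intro s' hs'
        rcases List.mem_cons.1 hs' with rfl | hs'
        · exact h
        · exact h3 s' hs')
      exact ⟨p, hp.1, by rw [List.cons_append, req, if_neg h]; exact hp.2⟩

lemma req_of' {I : Finset Pa} {o' : Rg → Pa} {r : Rg} (Q : Pa → Prop) (l : List (PS Rg Pa q))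
    (h1 : ∀ s ∈ l, r ∈ s.A → ∃ p, Q p ∧ s.In p ∧ p ∈ I)
    (h2 : (∀ s ∈ l, r ∉ s.A) → Q (o' r)) : ∃ p, Q p ∧ req I o' r p l := by
  have := req_of (I := I) (o' := o') Q l [] h1 fun h => ⟨_, h2 h, rfl⟩
  rwa [List.append_nil] at this

lemma good_append {I : Finset Pa} {o' : Rg → Pa} {l l' : List (PS Rg Pa q)}
    (h1 : l.Pairwise fun s s' => ∀ r ∈ s.A, r ∈ s'.A → ∃ p, (s.Out p ∧ p ∈ I) ∧ s'.In p ∧ p ∈ I)
    (h2 : ∀ s ∈ l, ∀ r ∈ s.A, ∃ p, (s.Out p ∧ p ∈ I) ∧ req I o' r p l') (h3 : Good I o' l') :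
    Good I o' (l ++ l') := by
  induction l with
  | nil => exact h3
  | cons s l ih =>
    rw [List.pairwise_cons] at h1
    refine ⟨fun r hr => ?_, ih h1.2 fun s' hs' => h2 s' (by simp [hs'])⟩
    obtain ⟨p, hp⟩ := req_of (I := I) (o' := o') (fun p => s.Out p ∧ p ∈ I) l l'
      (fun s' hs' hr' => h1.1 s' hs' r hr hr') fun _ => h2 s (by simp) r hr
    exact ⟨p, hp.1.1, hp.1.2, hp.2⟩

/-! ### constructors of pre-steps -/

/-- corestriction of an embedding to its range -/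
def cor (e : κ ↪ Rg) : κ ↪ ↥(rg e) :=
  ⟨fun k => ⟨e k, apply_mem_rg e k⟩, fun _ _ h => e.injective (congrArg Subtype.val h)⟩

lemma cor_trans (e : κ ↪ Rg) : (cor e).trans (sb (rg e)) = e := rfl

lemma cor_surj (e : κ ↪ Rg) : Function.Surjective (cor e) := by
  rintro ⟨r, hr⟩
  obtain ⟨k, rfl⟩ := mem_rg.1 hr
  exact ⟨k, rfl⟩

/-- configurations on the range -/
noncomputable def corE (e : κ ↪ Rg) : (↥(rg e) → Fin q) ≃ (κ → Fin q) :=
  Equiv.arrowCongr (Equiv.ofBijective (cor e) ⟨(cor e).injective, cor_surj e⟩).symm (Equiv.refl _)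

lemma corE_apply (e : κ ↪ Rg) (σ : ↥(rg e) → Fin q) : corE e σ = fun k => σ (cor e k) := rfl

lemma em_cor_kt (e : κ ↪ Rg) (a a' : (κ → Fin q) → ℂ) :
    em (cor e) (kt a a') = vecMulVec (a ∘ corE e) (star (a' ∘ corE e)) := by
  ext σ τ
  rw [em_apply, if_pos]
  · rfl
  · intro r hr
    obtain ⟨k, rfl⟩ := cor_surj e r
    exact absurd (apply_mem_rg _ k) hr

/-- `a` is admissible when all owners satisfy `P` -/
def Adm (P : Pa → Prop) (a : (κ → Fin q) → ℂ) : Prop :=
  (∃ P' : Pa × Pa, ∀ p, P p → Mem p P') ∨ ∃ b c, a = bv b c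

lemma Adm.pb {P : Pa → Prop} {a : (κ → Fin q) → ℂ} (h : Adm P a) (e : κ ↪ Rg) {o : Rg → Pa}
    (ho : ∀ r ∈ rg e, P (o r)) : PB o (rg e) (a ∘ corE e) := by
  rcases h with ⟨P', h⟩ | ⟨b, c, rfl⟩
  · exact Or.inl ⟨P'.1, P'.2, fun r hr => h _ (ho r hr)⟩
  · refine Or.inr ⟨(corE e).symm b, c, funext fun σ => ?_⟩
    by_cases h : σ = (corE e).symm b
    · subst h; simp [bv]
    · have h' : corE e σ ≠ b := fun h' => h (by rw [← h']; simp)
      simp [bv, Pi.single_eq_of_ne h, Pi.single_eq_of_ne h']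

/-- rank one pre-step `|a⟩⟨a'|` along `e` -/
noncomputable def PS.rk (e : κ ↪ Rg) (a a' : (κ → Fin q) → ℂ) (In Out : Pa → Prop)
    (ha : ∑ σ, ‖a σ‖ ^ 2 ≤ 1) (ha' : ∑ σ, ‖a' σ‖ ^ 2 ≤ 1) (hIn : Adm In a') (hOut : Adm Out a) :
    PS Rg Pa q where
  A := rg e
  M := em (cor e) (kt a a')
  In := In
  Out := Out
  ok o o' h h' := Or.inr ⟨a ∘ corE e, a' ∘ corE e, em_cor_kt e a a',
    by rw [← (corE e).sum_comp] at ha; exact ha, by rw [← (corE e).sum_comp] at ha'; exact ha',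
    hIn.pb e h, hOut.pb e h'⟩

lemma PS.rk_op (e : κ ↪ Rg) (a a' : (κ → Fin q) → ℂ) (In Out : Pa → Prop) (ha ha' hIn hOut) :
    (PS.rk e a a' In Out ha ha' hIn hOut).op = em e (kt a a') := by
  rw [PS.op, localOp_em]
  exact em_em _ _ _

/-- private contraction along `e` -/
noncomputable def PS.pv (e : κ ↪ Rg) (U : N336.Op κ q) (u : Pa) (hU : ‖U‖ ≤ 1) : PS Rg Pa q where
  A := rg e
  M := em (cor e) U
  In := fun p => p = u
  Out := fun p => p = u
  ok _ _ h h' := Or.inl ⟨(norm_em_le _ _).trans hU, u, fun r hr => ⟨h r hr, h' r hr⟩⟩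

lemma PS.pv_op (e : κ ↪ Rg) (U : N336.Op κ q) (u : Pa) (hU) :
    (PS.pv e U u hU).op = em e U := by
  rw [PS.op, localOp_em]
  exact em_em _ _ _

/-! ### families of branches -/

/-- operator of a family of branches -/
noncomputable def opF (F : List (List (PS Rg Pa q))) : N336.Op Rg q := (F.map opP).sum

/-- first a branch of `F`, then a branch of `G` -/
def sq2 (F G : List (List (PS Rg Pa q))) : List (List (PS Rg Pa q)) :=
  F.flatMap fun b => G.map fun b' => b ++ b'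

lemma opF_sq2 (F G : List (List (PS Rg Pa q))) : opF (sq2 F G) = opF G * opF F := by
  induction F with
  | nil => simp [opF, sq2]
  | cons b F ih =>
    have h1 : sq2 (b :: F) G = (G.map fun b' => b ++ b') ++ sq2 F G := by simp [sq2]
    have h2 : opF (G.map fun b' => b ++ b') = opF G * opP b := by
      rw [opF, opF, List.map_map, ← List.sum_map_mul_right]
      congr 1
      exact List.map_congr_left fun b' _ => opP_append b b'
    rw [h1, opF, List.map_append, List.sum_append, ← opF, ← opF, ih, h2, opF, opF, opF,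
      List.map_cons, List.sum_cons, Matrix.mul_add]

lemma length_sq2 (F G : List (List (PS Rg Pa q))) : (sq2 F G).length = F.length * G.length := by
  induction F with
  | nil => simp [sq2]
  | cons b F ih =>
    have h1 : sq2 (b :: F) G = (G.map fun b' => b ++ b') ++ sq2 F G := by simp [sq2]
    rw [h1, List.length_append, ih, List.length_map, List.length_cons]; ring

lemma mem_sq2 {F G : List (List (PS Rg Pa q))} {b : List (PS Rg Pa q)} :
    b ∈ sq2 F G ↔ ∃ b₁ ∈ F, ∃ b₂ ∈ G, b = b₁ ++ b₂ := by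
  simp [sq2, eq_comm]

/-- the layers `L x`, `x ∈ l`, one after the other -/
def sqA {X : Type} (L : X → List (List (PS Rg Pa q))) : List X → List (List (PS Rg Pa q))
  | [] => [[]]
  | x :: l => sq2 (L x) (sqA L l)

lemma opF_sqA {X : Type} (L : X → List (List (PS Rg Pa q))) (l : List X) :
    opF (sqA L l) = (l.map fun x => opF (L x)).reverse.prod := by
  induction l with
  | nil => simp [sqA, opF, opP]
  | cons x l ih => simp [sqA, opF_sq2, ih]

lemma length_sqA {X : Type} (L : X → List (List (PS Rg Pa q))) (l : List X) {B : ℕ}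
    (h : ∀ x ∈ l, 1 ≤ (L x).length ∧ (L x).length ≤ B) :
    1 ≤ (sqA L l).length ∧ (sqA L l).length ≤ B ^ l.length := by
  induction l with
  | nil => simp [sqA]
  | cons x l ih =>
    obtain ⟨h1, h2⟩ := ih fun y hy => h y (by simp [hy])
    obtain ⟨h3, h4⟩ := h x (by simp)
    rw [sqA, length_sq2, List.length_cons, pow_succ']
    exact ⟨Nat.mul_le_mul h3 h1, Nat.mul_le_mul h4 h2⟩

/-- facts on the branches of a sequence of layers -/
lemma sqA_spec {X : Type} (L : X → List (List (PS Rg Pa q))) (R : PS Rg Pa q → PS Rg Pa q → Prop)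
    (m : ℕ) (l : List X) (h1 : ∀ x ∈ l, ∀ b ∈ L x, b.length ≤ m ∧ b.Pairwise R)
    (h2 : l.Pairwise fun x y => ∀ b ∈ L x, ∀ b' ∈ L y, ∀ s ∈ b, ∀ s' ∈ b', R s s') :
    ∀ b ∈ sqA L l, b.length ≤ m * l.length ∧ b.Pairwise R ∧
      (∀ s ∈ b, ∃ x ∈ l, ∃ b' ∈ L x, s ∈ b') ∧ ∀ x ∈ l, ∃ b' ∈ L x, b' ⊆ b := by
  induction l with
  | nil => simp [sqA]
  | cons x l ih =>
    intro b hb
    rw [List.pairwise_cons] at h2
    obtain ⟨b₁, hb₁, b₂, hb₂, rfl⟩ := mem_sq2.1 hb
    obtain ⟨h3, h4, h5, h6⟩ := ih (fun y hy => h1 y (by simp [hy])) h2.2 b₂ hb₂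
    obtain ⟨h7, h8⟩ := h1 x (by simp) b₁ hb₁
    refine ⟨?_, ?_, ?_, ?_⟩
    · rw [List.length_append, List.length_cons]; nlinarith
    · refine List.pairwise_append.2 ⟨h8, h4, fun s hs s' hs' => ?_⟩
      obtain ⟨y, hy, b', hb', hs''⟩ := h5 s' hs'
      exact h2.1 y hy b₁ hb₁ b' hb' s hs s' hs''
    · intro s hs
      rcases List.mem_append.1 hs with hs | hs
      · exact ⟨x, by simp, b₁, hb₁, hs⟩
      · obtain ⟨y, hy, h⟩ := h5 s hs
        exact ⟨y, by simp [hy], h⟩
    · intro y hy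
      rcases List.mem_cons.1 hy with rfl | hy
      · exact ⟨b₁, hb₁, List.subset_append_left _ _⟩
      · obtain ⟨b', hb', h⟩ := h6 y hy
        exact ⟨b', hb', List.Subset.trans h (List.subset_append_right _ _)⟩

lemma opF_ofFn {m : ℕ} (f : Fin m → List (PS Rg Pa q)) : opF (List.ofFn f) = ∑ i, opP (f i) := by
  rw [opF, List.map_ofFn, List.sum_ofFn]; rfl

lemma opF_toList {X : Type} (S : Finset X) (f : X → List (PS Rg Pa q)) :
    opF (S.toList.map f) = ∑ x ∈ S, opP (f x) := by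
  rw [opF, List.map_map, Finset.sum_map_toList]; rfl

/-- a family of feasible branches is a valid gate -/
theorem exists_gate {I : Finset Pa} {o o' : Rg → Pa} {B ℓ : ℕ} (F : List (List (PS Rg Pa q)))
    (h1 : 1 ≤ F.length) (h2 : F.length ≤ B) (h3 : ∀ b ∈ F, b.length ≤ ℓ ∧ Feas I o o' b)
    (h4 : ‖opF F‖ ≤ 1) : ∃ g : Gate Rg Pa q, g.I = I ∧ g.Valid B ℓ o o' ∧ g.op = opF F := by
  have h5 : ∀ β : Fin F.length, ∃ l' : List (Step Rg Pa q),
      Chain I o l' o' ∧ opOf l' = opP (F.get β) ∧ l'.length = (F.get β).length :=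
    fun β => (h3 _ (List.get_mem F β)).2
  choose br hbr using h5
  have h6 : (⟨I, F.length, br⟩ : Gate Rg Pa q).op = opF F := by
    rw [Gate.op]
    simp only [fun β => (hbr β).2.1]
    conv_rhs => rw [← List.ofFn_get F, opF_ofFn]
  refine ⟨⟨I, F.length, br⟩, rfl, ⟨h1, h2, fun β => ⟨?_, (hbr β).1⟩, ?_⟩, h6⟩
  · change (br β).length ≤ ℓ
    rw [(hbr β).2.2]; exact (h3 _ (List.get_mem F β)).1
  · rw [h6]; exact h4

end Crest.Agent.N336.P.Snd
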