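import Crest.Agent.N336.P.Sound.Own

/-!
# Row 336, soundness of plans: encoders of holes (helper29)
-/

set_option autoImplicit false
set_option linter.unusedSectionVars false

open Matrix Finset
open scoped Matrix.Norms.L2Operator

namespace Crest.Agent.N336.P.Snd

open Crest.MathPhysics.LatticeSpin Crest.Agent.N336.Q

variable {Λ Rg : Type} [Fintype Λ] [DecidableEq Λ] [Fintype Rg] [DecidableEq Rg] {q nt : ℕ}

lemma norm_le_one_of_proj {G : N336.Op Rg q} (h1 : Gᴴ = G) (h2 : G * G = G) : ‖G‖ ≤ 1 := by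
  have h := Matrix.l2_opNorm_conjTranspose_mul_self G
  rw [h1, h2] at h
  by_contra h3
  nlinarith [norm_nonneg G, not_le.1 h3]

lemma norm_le_one_of_ct {E : N336.Op Rg q} (h : ‖Eᴴ * E‖ ≤ 1) : ‖E‖ ≤ 1 := by
  rw [Matrix.l2_opNorm_conjTranspose_mul_self] at h
  by_contra h3
  nlinarith [norm_nonneg E, not_le.1 h3]

lemma close_prod {l : List (N336.Op Rg q)} {y : N336.Vec Rg q} {ε : ℝ} (h1 : ∀ M ∈ l, ‖M‖ ≤ 1)
    (h2 : ∀ M ∈ l, ‖ap M y - y‖ ≤ ε) : ‖ap l.prod y - y‖ ≤ l.length * ε := by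
  induction l with
  | nil => simp
  | cons M l ih =>
    have h3 := ih (fun N hN => h1 N (by simp [hN])) fun N hN => h2 N (by simp [hN])
    have h4 : ap (M * l.prod) y - y = ap M (ap l.prod y - y) + (ap M y - y) := by
      rw [ap_mul, map_sub]; abel
    rw [List.prod_cons, h4, List.length_cons]
    push_cast
    linarith [norm_add_le (ap M (ap l.prod y - y)) (ap M y - y), h2 M (by simp),
      ap_le_of_le_one (h1 M (by simp)) (ap l.prod y - y)]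

lemma close_ct_prod {l : List (N336.Op Rg q)} {y : N336.Vec Rg q} {ε : ℝ} (h1 : ∀ M ∈ l, ‖M‖ ≤ 1)
    (h2 : l.Pairwise fun M N => Commute (Mᴴ * M) N) (h3 : ∀ M ∈ l, ‖ap (Mᴴ * M) y - y‖ ≤ ε) :
    ‖ap (l.prodᴴ * l.prod) y - y‖ ≤ l.length * ε := by
  induction l with
  | nil => simp
  | cons M l ih =>
    rw [List.pairwise_cons] at h2
    have h4 := ih (fun N hN => h1 N (by simp [hN])) h2.2 fun N hN => h3 N (by simp [hN])
    have h5 : Commute (Mᴴ * M) l.prod := Commute.list_prod_right _ _ h2.1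
    have h6 : ‖l.prod‖ ≤ 1 := list_prod_le_one fun N hN => h1 N (by simp [hN])
    have h7 : ap ((M * l.prod)ᴴ * (M * l.prod)) y - y =
        ap (l.prodᴴ * l.prod) (ap (Mᴴ * M) y - y) + (ap (l.prodᴴ * l.prod) y - y) := by
      have : (M * l.prod)ᴴ * (M * l.prod) = l.prodᴴ * l.prod * (Mᴴ * M) := by
        rw [conjTranspose_mul, Matrix.mul_assoc, ← Matrix.mul_assoc Mᴴ, h5.eq, Matrix.mul_assoc]
      rw [this, ap_mul _ (Mᴴ * M), map_sub]; abel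
    have h8 : ‖l.prodᴴ * l.prod‖ ≤ 1 := mul_le_one' (by rwa [norm_ct]) h6
    rw [List.prod_cons, h7, List.length_cons]
    push_cast
    linarith [norm_add_le (ap (l.prodᴴ * l.prod) (ap (Mᴴ * M) y - y))
      (ap (l.prodᴴ * l.prod) y - y), h3 M (by simp), ap_le_of_le_one h8 (ap (Mᴴ * M) y - y)]

/-- product over a finite set in some order -/
noncomputable def prodF {X : Type} (S : Finset X) (f : X → N336.Op Rg q) : N336.Op Rg q :=
  (S.toList.map f).prod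

section prodF

variable {X : Type} [DecidableEq X] {S T : Finset X} {f g : X → N336.Op Rg q}

@[simp] lemma prodF_empty (f : X → N336.Op Rg q) : prodF ∅ f = 1 := by simp [prodF]

@[simp] lemma prodF_singleton (x : X) (f : X → N336.Op Rg q) : prodF {x} f = f x := by
  simp [prodF]

lemma prodF_congr (h : ∀ x ∈ S, f x = g x) : prodF S f = prodF S g := by
  rw [prodF, prodF, List.map_congr_left fun x hx => h x (Finset.mem_toList.1 hx)]

lemma pairwise_toList {R : X → X → Prop} (h : ∀ x ∈ S, ∀ y ∈ S, x ≠ y → R x y) :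
    S.toList.Pairwise R :=
  (Finset.nodup_toList S).imp_of_mem fun hx hy hne =>
    h _ (Finset.mem_toList.1 hx) _ (Finset.mem_toList.1 hy) hne

lemma prodF_union (hd : Disjoint S T)
    (h : ∀ x ∈ S ∪ T, ∀ y ∈ S ∪ T, x ≠ y → Commute (f x) (f y)) :
    prodF (S ∪ T) f = prodF S f * prodF T f := by
  rw [prodF, prodF, prodF, ← List.prod_append, ← List.map_append]
  refine List.Perm.prod_eq' (List.Perm.map f ?_) (List.pairwise_map.2 (pairwise_toList h))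
  refine (List.perm_ext_iff_of_nodup (Finset.nodup_toList _) ?_).2 (by simp)
  refine List.nodup_append.2 ⟨Finset.nodup_toList _, Finset.nodup_toList _, ?_⟩
  intro a ha b hb hab
  subst hab
  exact Finset.disjoint_left.1 hd (Finset.mem_toList.1 ha) (Finset.mem_toList.1 hb)

lemma norm_prodF_le (h : ∀ x ∈ S, ‖f x‖ ≤ 1) : ‖prodF S f‖ ≤ 1 :=
  list_prod_le_one fun M hM => by
    obtain ⟨x, hx, rfl⟩ := List.mem_map.1 hM
    exact h x (Finset.mem_toList.1 hx)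

lemma sp_prodF {Y : Finset Rg} (h : ∀ x ∈ S, Sp Y (f x)) : Sp Y (prodF S f) :=
  Supp.list_prod fun M hM => by
    obtain ⟨x, hx, rfl⟩ := List.mem_map.1 hM
    exact h x (Finset.mem_toList.1 hx)

lemma commute_prodF {M : N336.Op Rg q} (h : ∀ x ∈ S, Commute M (f x)) : Commute M (prodF S f) :=
  Commute.list_prod_right _ _ fun N hN => by
    obtain ⟨x, hx, rfl⟩ := List.mem_map.1 hN
    exact h x (Finset.mem_toList.1 hx)

lemma close_prodF {y : N336.Vec Rg q} {ε : ℝ} (h1 : ∀ x ∈ S, ‖f x‖ ≤ 1)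
    (h2 : ∀ x ∈ S, ∀ x' ∈ S, x ≠ x' → Commute ((f x)ᴴ * f x) (f x'))
    (h3 : ∀ x ∈ S, ‖ap ((f x)ᴴ * f x) y - y‖ ≤ ε) :
    ‖ap ((prodF S f)ᴴ * prodF S f) y - y‖ ≤ S.card * ε := by
  have := close_ct_prod (l := S.toList.map f) (y := y) (ε := ε)
    (fun M hM => by
      obtain ⟨x, hx, rfl⟩ := List.mem_map.1 hM
      exact h1 x (Finset.mem_toList.1 hx))
    (List.pairwise_map.2 (pairwise_toList h2))
    (fun M hM => by
      obtain ⟨x, hx, rfl⟩ := List.mem_map.1 hM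
      exact h3 x (Finset.mem_toList.1 hx))
  rwa [List.length_map, Finset.length_toList] at this

end prodF

/-- A patch family. -/
structure Fm (Λ : Type) (q : ℕ) where
  nb : ℕ
  A : Fin nb → Finset Λ
  a : ∀ α, (↥(A α) → Fin q) → ℂ

/-- The projector of a family. -/
noncomputable def Fm.G (R : Fm Λ q) : N336.Op Λ q := ∑ α, rk1 (R.A α) (R.a α) (R.a α)

/-- The family is a patch family between `I` and `O`. -/
structure Fm.OK (R : Fm Λ q) (Ω : N336.Vec Λ q) (B : ℕ) (ε : ℝ) (I O : Finset Λ) : Prop where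
  nb_le : R.nb ≤ B
  sub : ∀ α, I ⊆ R.A α ∧ R.A α ⊆ O
  nrm : ∀ α, ∑ σ, ‖R.a α σ‖ ^ 2 = 1
  orth : ∀ α β, α ≠ β → rk1 (R.A α) (R.a α) (R.a α) * rk1 (R.A β) (R.a β) (R.a β) = 0
  close : ‖ap R.G Ω - Ω‖ ≤ ε

lemma exists_fm {Ω : N336.Vec Λ q} {B : ℕ} {ε : ℝ} {I O : Finset Λ} (h : PatchFam Ω B ε I O) :
    ∃ R : Fm Λ q, R.OK Ω B ε I O := by
  obtain ⟨nb, A, a, h1, h2, h3, h4, h5⟩ := h
  exact ⟨⟨nb, A, a⟩, h1, h2, h3, h4, h5⟩

lemma sp_rk1 (A : Finset Λ) (a a' : (A → Fin q) → ℂ) : Sp A (rk1 A a a') := by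
  rw [rk1_eq]
  have := sp_em (sb A) (kt a a')
  rwa [rg_sb] at this

lemma rk1_ct (A : Finset Λ) (a a' : (A → Fin q) → ℂ) : (rk1 A a a')ᴴ = rk1 A a' a := by
  rw [rk1_eq, rk1_eq, ← em_ct, kt_ct]

lemma rk1_mul (A : Finset Λ) (a a' b b' : (A → Fin q) → ℂ) (h : ∑ τ, star (a' τ) * b τ = 1) :
    rk1 A a a' * rk1 A b b' = rk1 A a b' := by
  rw [rk1_eq, rk1_eq, rk1_eq, ← map_mul, kt_mul, h, one_smul]

namespace Fm.OK

variable {R : Fm Λ q} {Ω : N336.Vec Λ q} {B : ℕ} {ε : ℝ} {I O : Finset Λ}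

lemma sp (h : R.OK Ω B ε I O) : Sp O R.G :=
  Supp.sum fun α _ => (sp_rk1 _ _ _).mono (h.sub α).2

lemma norm_G (h : R.OK Ω B ε I O) : ‖R.G‖ ≤ 1 := by
  refine norm_le_one_of_proj ?_ ?_
  · simp only [Fm.G, conjTranspose_sum, rk1_ct]
  · rw [Fm.G, Finset.sum_mul_sum]
    refine Finset.sum_congr rfl fun α _ => ?_
    rw [Finset.sum_eq_single α]
    · exact rk1_mul _ _ _ _ _ (by rw [sum_star_self, h.nrm]; simp)
    · exact fun β _ hβ => h.orth α β hβ.symm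
    · simp

lemma nb_pos (h : R.OK Ω B ε I O) (hΩ : ‖Ω‖ = 1) (hε : ε < 1) : 1 ≤ R.nb := by
  by_contra h1
  have h2 : R.G = 0 := by
    have : IsEmpty (Fin R.nb) := ⟨fun i => by have := i.2; omega⟩
    simp [Fm.G]
  have h3 := h.close
  rw [h2, ap_zero, zero_sub, norm_neg, hΩ] at h3
  linarith

end Fm.OK

/-- A record: a family, tag registers and codes of the branches. -/
structure Rec (Λ Rg : Type) (q nt : ℕ) extends Fm Λ q where
  tag : Fin nt ↪ Rg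
  code : Fin nb ↪ (Fin nt → Fin q)

variable [NeZero q]

/-- The encoder. -/
noncomputable def Rec.E (R : Rec Λ Rg q nt) (ρ : Λ ↪ Rg) : N336.Op Rg q :=
  ∑ α, em R.tag (kt (bv (R.code α) 1) (bv 0 1)) * em ρ (rk1 (R.A α) (bv 0 1) (R.a α))

/-- Registers of a record. -/
def Rec.S (R : Rec Λ Rg q nt) (ρ : Λ ↪ Rg) (O : Finset Λ) : Finset Rg := rg R.tag ∪ O.map ρ

lemma map_subset_rg (ρ : Λ ↪ Rg) (O : Finset Λ) : O.map ρ ⊆ rg ρ :=
  Finset.map_subset_map.2 (Finset.subset_univ O)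

section rec

variable {R : Rec Λ Rg q nt} {ρ ρ' : Λ ↪ Rg} {Ω : N336.Vec Λ q} {B : ℕ} {ε : ℝ} {I O : Finset Λ}

lemma sp_E (h : R.toFm.OK Ω B ε I O) (ρ : Λ ↪ Rg) : Sp (R.S ρ O) (R.E ρ) :=
  Supp.sum fun α _ => (sp_em _ _).mul_union (Sp.em ρ ((sp_rk1 _ _ _).mono (h.sub α).2))

lemma E_congr (h : R.toFm.OK Ω B ε I O) (hρ : ∀ z ∈ O, ρ z = ρ' z) : R.E ρ = R.E ρ' :=
  Finset.sum_congr rfl fun α _ => by
    rw [em_congr hρ ((sp_rk1 _ _ _).mono (h.sub α).2)]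

lemma E_ct (R : Rec Λ Rg q nt) (ρ : Λ ↪ Rg) : (R.E ρ)ᴴ =
    ∑ α, em ρ (rk1 (R.A α) (R.a α) (bv 0 1)) * em R.tag (kt (bv 0 1) (bv (R.code α) 1)) := by
  simp only [Rec.E, conjTranspose_sum, conjTranspose_mul, ← em_ct, rk1_ct, kt_ct]

lemma EtE (hd : Disjoint (rg R.tag) (rg ρ)) :
    (R.E ρ)ᴴ * R.E ρ = em ρ R.toFm.G * em R.tag (kt (bv 0 1) (bv 0 1)) := by
  rw [E_ct, Rec.E, Finset.sum_mul_sum, Fm.G, map_sum, Finset.sum_mul]
  refine Finset.sum_congr rfl fun α _ => ?_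
  have h1 : ∀ β, em ρ (rk1 (R.A α) (R.a α) (bv 0 1)) * em R.tag (kt (bv 0 1) (bv (R.code α) 1)) *
      (em R.tag (kt (bv (R.code β) 1) (bv 0 1)) * em ρ (rk1 (R.A β) (bv 0 1) (R.a β))) =
      (if α = β then (1 : ℂ) else 0) • (em ρ (rk1 (R.A α) (R.a α) (bv 0 1)) *
        em ρ (rk1 (R.A β) (bv 0 1) (R.a β)) * em R.tag (kt (bv 0 1) (bv 0 1))) := by
    intro β
    rw [Matrix.mul_assoc, ← Matrix.mul_assoc (em R.tag _), ← map_mul, kt_mul, sum_star_bv,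
      map_smul, Matrix.smul_mul, ((sp_em _ _).commute (sp_em _ _) hd).eq, Matrix.mul_smul,
      Matrix.mul_assoc]
    simp only [R.code.injective.eq_iff]
  simp only [h1]
  rw [Finset.sum_eq_single α]
  · rw [if_pos rfl, one_smul, ← map_mul, rk1_mul _ _ _ _ _ (by rw [sum_star_bv, if_pos rfl])]
  · intro β _ hβ; rw [if_neg hβ.symm, zero_smul]
  · simp

lemma norm_P0 {κ : Type} [Fintype κ] [DecidableEq κ] (e : κ ↪ Rg) :
    ‖em e (kt (bv (q := q) 0 1) (bv 0 1))‖ ≤ 1 :=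
  (norm_em_le _ _).trans (norm_kt_le (by simp [sum_bv]) (by simp [sum_bv]))

lemma norm_E (h : R.toFm.OK Ω B ε I O) (hd : Disjoint (rg R.tag) (rg ρ)) : ‖R.E ρ‖ ≤ 1 := by
  refine norm_le_one_of_ct ?_
  rw [EtE hd]
  exact mul_le_one' ((norm_em_le _ _).trans h.norm_G) (norm_P0 _)

lemma close_E (h : R.toFm.OK Ω B ε I O) (hd : Disjoint (rg R.tag) (rg ρ)) (hΩ : ‖Ω‖ = 1)
    {W : (Rg → Fin q) → ℂ} (hW : Indep (rg ρ) W) (hz : Zr (rg R.tag) W) (hn : ‖tens ρ Ω W‖ ≤ 1) :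
    ‖ap ((R.E ρ)ᴴ * R.E ρ) (tens ρ Ω W) - tens ρ Ω W‖ ≤ ε := by
  have h1 : Zr (rg R.tag) (tens ρ Ω W) := hz.mul_left _
  rw [EtE hd, ap_mul, h1.fix]
  exact close_tens ρ hΩ hW hn h.close

end rec

end Crest.Agent.N336.P.Snd
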