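import Crest.Agent.N336.P.Defs
import Crest.Agent.N336.Q.Cond

/-!
# Row 336, soundness of plans: product vectors along an embedding (helper29)
-/

set_option autoImplicit false
set_option linter.unusedSectionVars false

open Matrix Finset
open scoped Matrix.Norms.L2Operator

namespace Crest.Agent.N336.P.Snd

open Crest.MathPhysics.LatticeSpin Crest.Agent.N336.Q

variable {ι κ μ : Type} [Fintype ι] [DecidableEq ι] [Fintype κ] [DecidableEq κ]
  [Fintype μ] [DecidableEq μ] {q : ℕ}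

/-- `m ⊗ 1` along an embedding, all local spaces `Fin q`. -/
noncomputable def em (e : κ ↪ ι) : N336.Op κ q →⋆ₐ[ℂ] N336.Op ι q := emb (d := fun _ => Fin q) e

/-- support for constant local spaces -/
abbrev Sp (X : Finset ι) (M : N336.Op ι q) : Prop := Supp (d := fun _ => Fin q) X M

/-- agreement outside `X` -/
abbrev Ag (X : Finset ι) (σ τ : ι → Fin q) : Prop := Agree (d := fun _ => Fin q) X σ τ

lemma em_apply (e : κ ↪ ι) (m : N336.Op κ q) (σ τ : ι → Fin q) :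
    em e m σ τ = if Ag (rg e) σ τ then m (fun k => σ (e k)) (fun k => τ (e k)) else 0 :=
  emb_apply (d := fun _ => Fin q) e m σ τ

lemma em_em (e' : μ ↪ κ) (e : κ ↪ ι) (m : N336.Op μ q) :
    em e (em e' m) = em (e'.trans e) m := emb_emb (d := fun _ => Fin q) e' e m

lemma norm_em_le (e : κ ↪ ι) (m : N336.Op κ q) : ‖em e m‖ ≤ ‖m‖ :=
  norm_emb_le (d := fun _ => Fin q) e m

lemma norm_em [NeZero q] (e : κ ↪ ι) (m : N336.Op κ q) : ‖em e m‖ = ‖m‖ :=
  norm_emb (d := fun _ => Fin q) e m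

lemma em_ct (e : κ ↪ ι) (m : N336.Op κ q) : em e mᴴ = (em e m)ᴴ := map_star (em e) m

lemma sp_em (e : κ ↪ ι) (m : N336.Op κ q) : Sp (rg e) (em e m) :=
  supp_emb (d := fun _ => Fin q) e m

lemma Sp.em {Y : Finset κ} (e : κ ↪ ι) {m : N336.Op κ q} (h : Sp Y m) : Sp (Y.map e) (em e m) :=
  Supp.emb (d := fun _ => Fin q) e h

lemma em_congr {Y : Finset κ} {e e' : κ ↪ ι} (he : ∀ k ∈ Y, e k = e' k) {m : N336.Op κ q}
    (h : Sp Y m) : em e m = em e' m := emb_congr he h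

lemma localOp_em (X : Finset ι) (m : Matrix (X → Fin q) (X → Fin q) ℂ) :
    localOp X m = em (sb X) m := localOp_eq X m

lemma act_eq (M : N336.Op ι q) (v : N336.Vec ι q) : act M v = ap M v := rfl

lemma opN_eq {n : Type} [Fintype n] [DecidableEq n] (M : Matrix n n ℂ) : opN M = ‖M‖ := rfl

lemma ap_le_of_le_one {M : N336.Op ι q} (h : ‖M‖ ≤ 1) (v : N336.Vec ι q) : ‖ap M v‖ ≤ ‖v‖ :=
  (norm_ap_le M v).trans (by nlinarith [norm_nonneg v])

lemma mul_le_one' {M N : N336.Op ι q} (h : ‖M‖ ≤ 1) (h' : ‖N‖ ≤ 1) : ‖M * N‖ ≤ 1 :=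
  (norm_mul_le M N).trans (by nlinarith [norm_nonneg M, norm_nonneg N])

lemma norm_one_le : ‖(1 : N336.Op ι q)‖ ≤ 1 := by
  rw [← norm_ap]
  simp only [ap, map_one]
  exact ContinuousLinearMap.norm_id_le

lemma list_prod_le_one {l : List (N336.Op ι q)} (h : ∀ M ∈ l, ‖M‖ ≤ 1) : ‖l.prod‖ ≤ 1 := by
  induction l with
  | nil => simpa using norm_one_le
  | cons M l ih =>
    rw [List.prod_cons]
    exact mul_le_one' (h M (by simp)) (ih fun N hN => h N (by simp [hN]))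

lemma norm_ct (M : N336.Op ι q) : ‖Mᴴ‖ = ‖M‖ := Matrix.l2_opNorm_conjTranspose M

/-- `W` does not depend on the coordinates in `Y`. -/
def Indep (Y : Finset ι) (W : (ι → Fin q) → ℂ) : Prop := ∀ σ τ, Ag Y σ τ → W σ = W τ

/-- `W` vanishes unless the coordinates in `Y` are zero. -/
def Zr [NeZero q] (Y : Finset ι) (W : (ι → Fin q) → ℂ) : Prop :=
  ∀ σ, W σ ≠ 0 → ∀ r ∈ Y, σ r = 0

lemma Indep.mono {X Y : Finset ι} {W : (ι → Fin q) → ℂ} (h : Indep Y W) (hXY : X ⊆ Y) :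
    Indep X W := fun σ τ h' => h σ τ (h'.mono hXY)

lemma Zr.mono [NeZero q] {X Y : Finset ι} {W : (ι → Fin q) → ℂ} (h : Zr Y W) (hXY : X ⊆ Y) :
    Zr X W := fun σ h' r hr => h σ h' r (hXY hr)

lemma Zr.mul_left [NeZero q] {Y : Finset ι} {W : (ι → Fin q) → ℂ} (h : Zr Y W)
    (f : (ι → Fin q) → ℂ) : Zr Y fun σ => f σ * W σ :=
  fun σ h' => h σ (right_ne_zero_of_mul h')

lemma Zr.ap [NeZero q] {X Y : Finset ι} {M : N336.Op ι q} {v : N336.Vec ι q} (hM : Sp X M)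
    (hd : Disjoint X Y) (h : Zr Y v) : Zr Y (Q.ap M v) := by
  intro σ hσ r hr
  rw [ap_apply] at hσ
  obtain ⟨τ, -, hτ⟩ := Finset.exists_ne_zero_of_sum_ne_zero hσ
  have h1 : Ag X σ τ := by
    by_contra h2
    exact left_ne_zero_of_mul hτ (hM.zero _ _ h2)
  rw [h1 r (Finset.disjoint_right.1 hd hr)]
  exact h τ (right_ne_zero_of_mul hτ) r hr

/-- sum over configurations agreeing outside the range of an embedding -/
lemma sum_agree (e : κ ↪ ι) (σ : ι → Fin q) (F : (ι → Fin q) → ℂ) :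
    (∑ τ, if Ag (rg e) σ τ then F τ else 0) =
      ∑ a : κ → Fin q, F ((eqv e fun _ => Fin q).symm (a, off (rg e) σ)) := by
  rw [← (eqv e fun _ => Fin q).symm.sum_comp, Fintype.sum_prod_type]
  refine Finset.sum_congr rfl fun a _ => ?_
  rw [Finset.sum_eq_single (off (rg e) σ)]
  · rw [if_pos]
    exact off_eq_iff.1 (by rw [off_symm])
  · intro c _ hc
    rw [if_neg]
    intro h
    have h' := off_eq_iff.2 h
    rw [off_symm] at h'
    exact hc h'.symm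
  · simp

lemma ap_em_apply (e : κ ↪ ι) (m : N336.Op κ q) (v : N336.Vec ι q) (σ : ι → Fin q) :
    ap (em e m) v σ = ∑ a : κ → Fin q,
      m (fun k => σ (e k)) a * v ((eqv e fun _ => Fin q).symm (a, off (rg e) σ)) := by
  rw [ap_apply]
  have : ∀ τ, em e m σ τ * v τ =
      if Ag (rg e) σ τ then m (fun k => σ (e k)) (fun k => τ (e k)) * v τ else 0 := by
    intro τ; rw [em_apply]; split_ifs <;> simp
  simp only [this]
  rw [sum_agree e σ fun τ => m (fun k => σ (e k)) (fun k => τ (e k)) * v τ]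
  refine Finset.sum_congr rfl fun a _ => ?_
  congr 2
  exact res_symm (d := fun _ => Fin q) e (a, off (rg e) σ)

lemma ag_symm (e : κ ↪ ι) (σ : ι → Fin q) (a : κ → Fin q) :
    Ag (rg e) σ ((eqv e fun _ => Fin q).symm (a, off (rg e) σ)) :=
  off_eq_iff.1 (by rw [off_symm])

lemma symm_apply_e (e : κ ↪ ι) (p : (κ → Fin q) × Rest (rg e) fun _ => Fin q) (k : κ) :
    (eqv e fun _ => Fin q).symm p (e k) = p.1 k :=
  congrFun (res_symm (d := fun _ => Fin q) e p) k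

lemma symm_apply_off (e : κ ↪ ι) (σ : ι → Fin q) (a : κ → Fin q) {r : ι} (hr : r ∉ rg e) :
    (eqv e fun _ => Fin q).symm (a, off (rg e) σ) r = σ r := (ag_symm e σ a r hr).symm

/-- an operator supported on `X` commutes with multiplication by a function independent of `X` -/
lemma ap_mul_indep {X : Finset ι} {M : N336.Op ι q} (hM : Sp X M) {f : (ι → Fin q) → ℂ}
    (hf : Indep X f) (v : N336.Vec ι q) (σ : ι → Fin q) :
    ap M (WithLp.toLp 2 fun τ => f τ * v τ) σ = f σ * ap M v σ := by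
  rw [ap_apply, ap_apply, Finset.mul_sum]
  refine Finset.sum_congr rfl fun τ _ => ?_
  by_cases h : Ag X σ τ
  · rw [hf σ τ h]; simp only; ring
  · rw [hM.zero _ _ h]; simp

lemma Indep.ap {X Y : Finset ι} {M : N336.Op ι q} (hM : Sp X M) (hd : Disjoint X Y)
    {v : N336.Vec ι q} (h : Indep Y v) : Indep Y (Q.ap M v) := by
  obtain ⟨m, rfl⟩ := hM.exists_lift
  intro σ τ hστ
  have h1 : ∀ σ, Q.ap (lift (d := fun _ => Fin q) X m) v σ = _ := ap_em_apply (sb X) m v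
  rw [h1, h1]
  refine Finset.sum_congr rfl fun a _ => ?_
  congr 1
  · congr 1
    funext k
    exact hστ _ (Finset.disjoint_left.1 hd k.2)
  · refine h _ _ fun r hr => ?_
    by_cases hx : r ∈ rg (sb X)
    · obtain ⟨k, rfl⟩ := mem_rg.1 hx
      rw [symm_apply_e, symm_apply_e]
    · rw [symm_apply_off _ _ _ hx, symm_apply_off _ _ _ hx]
      exact hστ r hr

/-- the product vector `φ ∘ e` times `W` -/
noncomputable def tens (e : κ ↪ ι) (φ : N336.Vec κ q) (W : (ι → Fin q) → ℂ) : N336.Vec ι q :=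
  WithLp.toLp 2 fun σ => φ (fun k => σ (e k)) * W σ

lemma tens_apply (e : κ ↪ ι) (φ : N336.Vec κ q) (W : (ι → Fin q) → ℂ) (σ : ι → Fin q) :
    tens e φ W σ = φ (fun k => σ (e k)) * W σ := rfl

lemma tens_sub (e : κ ↪ ι) (φ ψ : N336.Vec κ q) (W : (ι → Fin q) → ℂ) :
    tens e (φ - ψ) W = tens e φ W - tens e ψ W := by
  ext σ; simp [tens_apply, sub_mul]

lemma ap_em_tens (e : κ ↪ ι) (m : N336.Op κ q) (φ : N336.Vec κ q) {W : (ι → Fin q) → ℂ}
    (hW : Indep (rg e) W) : ap (em e m) (tens e φ W) = tens e (ap m φ) W := by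
  ext σ
  rw [ap_em_apply, tens_apply, ap_apply, Finset.sum_mul]
  refine Finset.sum_congr rfl fun a _ => ?_
  have h1 : (fun k => (eqv e fun _ => Fin q).symm (a, off (rg e) σ) (e k)) = a :=
    funext fun k => symm_apply_e _ _ k
  rw [tens_apply, ← hW _ _ (ag_symm e σ a), mul_assoc, h1]

lemma norm_tens_sq [NeZero q] (e : κ ↪ ι) (φ : N336.Vec κ q) {W : (ι → Fin q) → ℂ}
    (hW : Indep (rg e) W) : ‖tens e φ W‖ ^ 2 =
      ‖φ‖ ^ 2 * ∑ c : Rest (rg e) fun _ => Fin q, ‖W ((eqv e fun _ => Fin q).symm (0, c))‖ ^ 2 := by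
  rw [EuclideanSpace.norm_sq_eq, EuclideanSpace.norm_sq_eq, Finset.sum_mul_sum,
    ← (eqv e fun _ => Fin q).symm.sum_comp, Fintype.sum_prod_type]
  refine Finset.sum_congr rfl fun a _ => Finset.sum_congr rfl fun c _ => ?_
  rw [tens_apply, norm_mul, mul_pow]
  have h1 : (fun k => (eqv e fun _ => Fin q).symm (a, c) (e k)) = a :=
    funext fun k => symm_apply_e _ _ k
  rw [h1, hW _ ((eqv e fun _ => Fin q).symm (0, c)) (off_eq_iff.1 (by rw [off_symm, off_symm]))]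

lemma norm_tens [NeZero q] (e : κ ↪ ι) (φ : N336.Vec κ q) {Ω : N336.Vec κ q} (hΩ : ‖Ω‖ = 1)
    {W : (ι → Fin q) → ℂ} (hW : Indep (rg e) W) : ‖tens e φ W‖ = ‖φ‖ * ‖tens e Ω W‖ := by
  rw [← sq_eq_sq₀ (norm_nonneg _) (by positivity), mul_pow, norm_tens_sq e φ hW,
    norm_tens_sq e Ω hW, hΩ, one_pow, one_mul]

/-- an operator which almost fixes `Ω` almost fixes `Ω ⊗ W` -/
lemma close_tens [NeZero q] (e : κ ↪ ι) {Ω : N336.Vec κ q} (hΩ : ‖Ω‖ = 1) {W : (ι → Fin q) → ℂ}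
    (hW : Indep (rg e) W) (hn : ‖tens e Ω W‖ ≤ 1) {G : N336.Op κ q} {ε : ℝ}
    (h : ‖ap G Ω - Ω‖ ≤ ε) : ‖ap (em e G) (tens e Ω W) - tens e Ω W‖ ≤ ε := by
  rw [ap_em_tens e G Ω hW, ← tens_sub, norm_tens e _ hΩ hW]
  nlinarith [norm_nonneg (ap G Ω - Ω), norm_nonneg (tens e Ω W)]

lemma indep_res {e : κ ↪ ι} {X : Finset ι} (hd : Disjoint X (rg e)) (φ : (κ → Fin q) → ℂ) :
    Indep X fun σ => φ fun k => σ (e k) := by
  intro σ τ h
  exact congrArg φ (funext fun k => h _ (Finset.disjoint_right.1 hd (apply_mem_rg e k)))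

/-- an operator away from the range of `e` acts on the second factor -/
lemma ap_tens {e : κ ↪ ι} {X : Finset ι} {M : N336.Op ι q} (hM : Sp X M) (hd : Disjoint X (rg e))
    (φ : N336.Vec κ q) (w : N336.Vec ι q) : ap M (tens e φ w) = tens e φ (ap M w) := by
  ext σ
  exact ap_mul_indep hM (indep_res hd φ) w σ

/-- the basis vector `c |b⟩` -/
def bv (b : κ → Fin q) (c : ℂ) : (κ → Fin q) → ℂ := Pi.single b c

lemma sum_bv (b : κ → Fin q) (c : ℂ) : ∑ σ, ‖bv b c σ‖ ^ 2 = ‖c‖ ^ 2 := by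
  rw [Finset.sum_eq_single b]
  · simp [bv]
  · intro σ _ h; simp [bv, Pi.single_eq_of_ne h]
  · simp

/-- `|a⟩⟨a'|` -/
def kt (a a' : (κ → Fin q) → ℂ) : N336.Op κ q := vecMulVec a (star a')

lemma kt_apply (a a' : (κ → Fin q) → ℂ) (σ τ : κ → Fin q) : kt a a' σ τ = a σ * star (a' τ) := rfl

lemma kt_ct (a a' : (κ → Fin q) → ℂ) : (kt a a')ᴴ = kt a' a := by
  ext σ τ; simp [kt_apply, mul_comm]

lemma kt_mul (a a' b b' : (κ → Fin q) → ℂ) :
    kt a a' * kt b b' = (∑ τ, star (a' τ) * b τ) • kt a b' := by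
  ext σ τ
  simp only [mul_apply, kt_apply, Matrix.smul_apply, smul_eq_mul, Finset.sum_mul]
  exact Finset.sum_congr rfl fun υ _ => by ring

lemma sum_star_bv (b b' : κ → Fin q) :
    ∑ τ, star (bv b 1 τ) * bv b' 1 τ = if b = b' then 1 else 0 := by
  rw [Finset.sum_eq_single b]
  · by_cases h : b = b'
    · subst h; simp [bv]
    · simp [bv, h]
  · intro σ _ h; simp [bv, Pi.single_eq_of_ne h]
  · simp

lemma sum_star_self (a : (κ → Fin q) → ℂ) :
    ∑ τ, star (a τ) * a τ = ((∑ τ, ‖a τ‖ ^ 2 : ℝ) : ℂ) := by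
  push_cast
  exact Finset.sum_congr rfl fun τ _ => by
    rw [mul_comm]; exact Complex.mul_conj' (a τ)

lemma rk1_eq (A : Finset ι) (a a' : (A → Fin q) → ℂ) : rk1 A a a' = em (sb A) (kt a a') :=
  localOp_em A _

lemma norm_kt_le {a a' : (κ → Fin q) → ℂ} (ha : ∑ σ, ‖a σ‖ ^ 2 ≤ 1) (ha' : ∑ σ, ‖a' σ‖ ^ 2 ≤ 1) :
    ‖kt a a'‖ ≤ 1 := by
  have h := norm_kb_le (WithLp.toLp 2 a : Q.Vec (κ → Fin q)) (WithLp.toLp 2 a')
  have h1 : ‖(WithLp.toLp 2 a : Q.Vec (κ → Fin q))‖ ≤ 1 := by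
    rw [← sq_le_one_iff₀ (norm_nonneg _), EuclideanSpace.norm_sq_eq]; exact ha
  have h2 : ‖(WithLp.toLp 2 a' : Q.Vec (κ → Fin q))‖ ≤ 1 := by
    rw [← sq_le_one_iff₀ (norm_nonneg _), EuclideanSpace.norm_sq_eq]; exact ha'
  exact h.trans (by nlinarith [norm_nonneg (WithLp.toLp 2 a : Q.Vec (κ → Fin q))])

/-- `|a⟩⟨0|` on zero registers -/
lemma ap_em_kt_zero [NeZero q] (e : κ ↪ ι) (a : (κ → Fin q) → ℂ) (v : N336.Vec ι q)
    (σ : ι → Fin q) : ap (em e (kt a (bv 0 1))) v σ =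
      a (fun k => σ (e k)) * v ((eqv e fun _ => Fin q).symm (0, off (rg e) σ)) := by
  rw [ap_em_apply, Finset.sum_eq_single 0]
  · simp [kt_apply, bv]
  · intro b _ hb; simp [kt_apply, bv, Pi.single_eq_of_ne hb]
  · simp

lemma Zr.fix [NeZero q] {e : κ ↪ ι} {v : N336.Vec ι q} (h : Zr (rg e) v) :
    Q.ap (em e (kt (bv 0 1) (bv 0 1))) v = v := by
  ext σ
  rw [ap_em_kt_zero]
  by_cases h0 : (fun k => σ (e k)) = 0
  · rw [h0]
    have : (eqv e fun _ => Fin q).symm (0, off (rg e) σ) = σ := by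
      rw [Equiv.symm_apply_eq, eqv_apply, ← h0]; rfl
    simp [bv, this]
  · rw [bv, Pi.single_eq_of_ne h0, zero_mul]
    by_contra h1
    exact h0 (funext fun k => h σ (Ne.symm h1) _ (apply_mem_rg e k))

end Crest.Agent.N336.P.Snd
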